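import Vale.Agent.P216.Chord.Par
import Vale.Agent.P371.Brouwer

/-!
A closed manifold cannot be deformed into a proper subset.  The deformation is lifted to a tubular
neighbourhood in a Euclidean space by composing normal projections, and Brouwer's theorem applies.
-/

open Set Filter Metric Manifold
open scoped Topology ContDiff RealInnerProductSpace

namespace Vale.Agent.P216.Sym

set_option maxSynthPendingDepth 3

noncomputable section

/-- A homotopy of the identity of the closure of a bounded open set which never sends the frontier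
to `q` ends in a map taking the value `q`. -/
theorem exists_eq_of_homotopy_id {V : Type*} [NormedAddCommGroup V] [NormedSpace ℝ V]
    [FiniteDimensional ℝ V] {O : Set V} (hO : IsOpen O) (hb : IsCompact (closure O))
    (G : ℝ × V → V) (hG : ContinuousOn G (Icc 0 1 ×ˢ closure O))
    (h0 : ∀ y ∈ closure O, G (0, y) = y) {q : V} (hq : q ∈ O)
    (hfr : ∀ t ∈ Icc (0 : ℝ) 1, ∀ y ∈ frontier O, G (t, y) ≠ q) :
    ∃ y ∈ O, G (1, y) = q := by
  classical
  set S : Set V := Prod.snd '' ((Icc (0 : ℝ) 1 ×ˢ closure O) ∩ G ⁻¹' {q}) with hS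
  have hSc : IsClosed S := by
    refine (IsCompact.image ?_ continuous_snd).isClosed
    exact (isCompact_Icc.prod hb).of_isClosed_subset
      (hG.preimage_isClosed_of_isClosed (isClosed_Icc.prod isClosed_closure) isClosed_singleton)
      inter_subset_left
  have hSO : S ⊆ O := by
    rintro y ⟨⟨t, y'⟩, ⟨⟨ht, hy⟩, he⟩, rfl⟩
    by_contra hyO
    exact hfr t ht y' ⟨hy, fun h => hyO (interior_subset h)⟩ he
  obtain ⟨τ, hτ0, hτ1, hτI⟩ := exists_continuous_zero_one_of_isClosed (isClosed_compl_iff.2 hO) hSc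
    (disjoint_compl_left.mono_right hSO)
  set F : V → V := fun y => if y ∈ closure O then G (τ y, y) else y with hF
  have hFo : ∀ y ∉ O, F y = y := by
    intro y hy
    by_cases h : y ∈ closure O
    · simp only [hF, if_pos h]
      rw [show τ y = 0 from hτ0 hy, h0 y h]
    · simp [hF, h]
  have hFc : Continuous F := by
    have h1 : ContinuousOn F (closure O) :=
      (hG.comp (τ.continuous.prodMk continuous_id).continuousOn fun y hy => ⟨hτI y, hy⟩).congr
        fun y hy => if_pos hy
    have h2 : ContinuousOn F Oᶜ := continuousOn_id.congr hFo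
    rw [← continuousOn_univ, show (univ : Set V) = closure O ∪ Oᶜ from
      (eq_univ_of_forall fun y => (em (y ∈ O)).imp (fun h => subset_closure h) id).symm]
    exact h1.union_of_isClosed h2 isClosed_closure (isClosed_compl_iff.2 hO)
  obtain ⟨C, hC⟩ := hb.exists_bound_of_continuousOn (hFc.sub continuous_id).continuousOn
  have hC0 : 0 ≤ C := (norm_nonneg _).trans (hC q (subset_closure hq))
  obtain ⟨y, -, hy⟩ := Vale.Agent.P371.exists_zero_of_near_id (fun y => F y - q)
    (R := C + ‖q‖) (by positivity) (hFc.sub continuous_const).continuousOn fun y _ => by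
      rw [show y - (F y - q) = -(F y - y) + q by abel]
      refine (norm_add_le _ _).trans (add_le_add ?_ le_rfl)
      rw [norm_neg]
      by_cases h : y ∈ closure O
      · exact hC y h
      · simp [hFo y fun h' => h (subset_closure h'), hC0]
  rw [sub_eq_zero] at hy
  by_cases h : y ∈ closure O
  · simp only [hF, if_pos h] at hy
    have hyS : y ∈ S := ⟨(τ y, y), ⟨⟨hτI y, h⟩, hy⟩, rfl⟩
    rw [show τ y = 1 from hτ1 hyS] at hy
    exact ⟨y, hSO hyS, hy⟩
  · rw [hFo y fun h' => h (subset_closure h')] at hy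
    exact absurd (hy ▸ subset_closure hq) h

section Manifold

variable {E : Type*} [NormedAddCommGroup E] [NormedSpace ℝ E] [FiniteDimensional ℝ E]
  {M : Type*} [TopologicalSpace M] [ChartedSpace E M] [IsManifold 𝓘(ℝ, E) ∞ M]
  {N : ℕ}

/-- The normal space of an embedded manifold. -/
def normalSpace (e : M → EuclideanSpace ℝ (Fin N)) (x : M) :
    Submodule ℝ (EuclideanSpace ℝ (Fin N)) :=
  let D : E →L[ℝ] EuclideanSpace ℝ (Fin N) :=
    mfderiv 𝓘(ℝ, E) 𝓘(ℝ, EuclideanSpace ℝ (Fin N)) e x
  (LinearMap.range D.toLinearMap)ᗮ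

variable {e : M → EuclideanSpace ℝ (Fin N)}
  (he : ContMDiff 𝓘(ℝ, E) 𝓘(ℝ, EuclideanSpace ℝ (Fin N)) ∞ e)
  (hinj : Function.Injective e)
  (himm : ∀ x, Function.Injective (mfderiv 𝓘(ℝ, E) 𝓘(ℝ, EuclideanSpace ℝ (Fin N)) e x))

include he himm in
/-- The embedding in a chart. -/
theorem chart_data (p : M) :
    let P := Chord.Par.chart (E := E) p
    ContDiffOn ℝ ∞ (e ∘ P.ψ) P.U ∧ ∀ z ∈ P.U, Function.Injective (fderiv ℝ (e ∘ P.ψ) z) ∧
      LinearMap.range (fderiv ℝ (e ∘ P.ψ) z).toLinearMap = (normalSpace (E := E) e (P.ψ z))ᗮ := by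
  intro P
  refine ⟨contMDiffOn_iff_contDiffOn.1 (he.comp_contMDiffOn P.smoothψ), fun z hz => ?_⟩
  have hψ := (P.smoothψ.contMDiffAt (P.openU.mem_nhds hz)).mdifferentiableAt (by simp)
  have hc := mfderiv_comp z (he.mdifferentiableAt (by simp) (x := P.ψ z)) hψ
  rw [mfderiv_eq_fderiv] at hc
  set D : E →L[ℝ] EuclideanSpace ℝ (Fin N) :=
    mfderiv 𝓘(ℝ, E) 𝓘(ℝ, EuclideanSpace ℝ (Fin N)) e (P.ψ z) with hD
  set T : E →L[ℝ] E := mfderiv 𝓘(ℝ, E) 𝓘(ℝ, E) P.ψ z with hT
  have hcomp : fderiv ℝ (e ∘ P.ψ) z = D.comp T := hc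
  have hTi : Function.Injective T := (injective_iff_map_eq_zero T).2 fun v hv => by
    by_contra h
    exact P.mfderiv_ne_zero hz h hv
  have hTs : Function.Surjective T.toLinearMap := LinearMap.injective_iff_surjective.1 hTi
  rw [hcomp]
  refine ⟨(himm (P.ψ z)).comp hTi, ?_⟩
  show _ = (LinearMap.range D.toLinearMap)ᗮᗮ
  rw [Submodule.orthogonal_orthogonal, ContinuousLinearMap.toLinearMap_comp,
    LinearMap.range_comp, LinearMap.range_eq_top.2 hTs, Submodule.map_top]

variable (e) in
/-- The orthogonal projection on the normal space. -/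
def normalProj (x : M) : EuclideanSpace ℝ (Fin N) →L[ℝ] EuclideanSpace ℝ (Fin N) :=
  (normalSpace (E := E) e x).starProjection

include he himm in
theorem continuous_normalProj : Continuous (normalProj (E := E) e) := by
  refine continuous_iff_continuousAt.2 fun p => ?_
  set P := Chord.Par.chart (E := E) p
  obtain ⟨hF, hd⟩ := chart_data (e := e) he himm p
  set L : E ≃L[ℝ] EuclideanSpace ℝ (Fin (Module.finrank ℝ E)) := toEuclidean
  set D : M → EuclideanSpace ℝ (Fin (Module.finrank ℝ E)) →L[ℝ] EuclideanSpace ℝ (Fin N) :=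
    fun x => (fderiv ℝ (e ∘ P.ψ) (P.φ x)).comp L.symm.toContinuousLinearMap with hD
  set pr : M → EuclideanSpace ℝ (Fin N) →L[ℝ] EuclideanSpace ℝ (Fin N) := fun x =>
    ContinuousLinearMap.id ℝ _ - (D x).comp ((ContinuousLinearMap.inverse
      ((ContinuousLinearMap.adjoint (D x)).comp (D x))).comp (ContinuousLinearMap.adjoint (D x)))
    with hpr
  have hp : p ∈ P.W := mem_extChartAt_source p
  have hDi : ∀ x ∈ P.W, Function.Injective (D x) := fun x hx =>
    (hd _ (P.mapsφ hx)).1.comp L.symm.injective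
  have hequiv : ∀ x ∈ P.W, ∃ A : EuclideanSpace ℝ (Fin (Module.finrank ℝ E)) ≃L[ℝ]
      EuclideanSpace ℝ (Fin (Module.finrank ℝ E)), A.toContinuousLinearMap =
        (ContinuousLinearMap.adjoint (D x)).comp (D x) := by
    intro x hx
    have hi : Function.Injective ((ContinuousLinearMap.adjoint (D x)).comp (D x)).toLinearMap := by
      refine (injective_iff_map_eq_zero _).2 fun v hv => ?_
      have h : ⟪ContinuousLinearMap.adjoint (D x) (D x v), v⟫ = 0 := by
        rw [show ContinuousLinearMap.adjoint (D x) (D x v) = 0 from hv, inner_zero_left]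
      rw [ContinuousLinearMap.adjoint_inner_left, inner_self_eq_zero] at h
      exact hDi x hx (by rw [h, map_zero])
    exact ⟨(LinearEquiv.ofInjectiveEndo _ hi).toContinuousLinearEquiv, by ext; rfl⟩
  have heq : ∀ x ∈ P.W, normalProj (E := E) e x = pr x := by
    intro x hx
    ext v : 1
    obtain ⟨A, hA⟩ := hequiv x hx
    set w := A.symm (ContinuousLinearMap.adjoint (D x) v)
    have hw : pr x v = v - D x w := by
      simp [hpr, ← hA, w]
    rw [hw, normalProj]
    have hmem : D x w ∈ (normalSpace (E := E) e x)ᗮ := by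
      have h := (hd _ (P.mapsφ hx)).2
      rw [P.right x hx] at h
      rw [← h]
      exact LinearMap.mem_range_self _ (L.symm w)
    refine Submodule.eq_starProjection_of_mem_orthogonal ?_ (by rwa [sub_sub_cancel])
    have h := (hd _ (P.mapsφ hx)).2
    rw [P.right x hx] at h
    rw [← Submodule.orthogonal_orthogonal (normalSpace (E := E) e x), ← h,
      Submodule.mem_orthogonal']
    rintro _ ⟨u, rfl⟩
    have hAw : ContinuousLinearMap.adjoint (D x) (D x w) = ContinuousLinearMap.adjoint (D x) v := by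
      have := congrArg (fun T : EuclideanSpace ℝ (Fin (Module.finrank ℝ E)) →L[ℝ] _ => T w) hA
      simp only [ContinuousLinearEquiv.coe_coe, ContinuousLinearMap.comp_apply] at this
      rw [← this, A.apply_symm_apply]
    have hu : (fderiv ℝ (e ∘ P.ψ) (P.φ x)).toLinearMap u = D x (L u) := by simp [hD]
    rw [hu, inner_sub_left, ← ContinuousLinearMap.adjoint_inner_left,
      ← ContinuousLinearMap.adjoint_inner_left, hAw, sub_self]
  refine ContinuousAt.congr ?_ (eventually_of_mem (P.openW.mem_nhds hp) fun x hx => (heq x hx).symm)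
  have hDc : ContinuousAt D p :=
    ((((hF.continuousOn_fderiv_of_isOpen P.openU (by simp)).continuousAt
      (P.openU.mem_nhds (P.mapsφ hp))).comp (P.smoothφ.continuousOn.continuousAt
        (P.openW.mem_nhds hp)))).clm_comp continuousAt_const
  have hadj : ContinuousAt (fun x => ContinuousLinearMap.adjoint (D x)) p :=
    (ContinuousLinearMap.adjoint (𝕜 := ℝ)
      (E := EuclideanSpace ℝ (Fin (Module.finrank ℝ E)))
      (F := EuclideanSpace ℝ (Fin N))).continuous.continuousAt.comp hDc
  have hinv : ContinuousAt (fun x => ContinuousLinearMap.inverse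
      ((ContinuousLinearMap.adjoint (D x)).comp (D x))) p := by
    obtain ⟨A, hA⟩ := hequiv p hp
    have h1 : ContinuousAt ContinuousLinearMap.inverse
        ((ContinuousLinearMap.adjoint (D p)).comp (D p)) := by
      rw [← hA]
      exact (contDiffAt_map_inverse (n := 0) A).continuousAt
    exact ContinuousAt.comp (f := fun x => (ContinuousLinearMap.adjoint (D x)).comp (D x)) h1
      (hadj.clm_comp hDc)
  exact continuousAt_const.sub (hDc.clm_comp (hinv.clm_comp hadj))

variable [T2Space M] [CompactSpace M]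

include he hinj himm in
/-- Chords of an embedded manifold are nearly tangent. -/
theorem exists_secant_bound : ∃ C : ℝ, 0 ≤ C ∧ ∀ x x' : M, ∀ w ∈ normalSpace (E := E) e x,
    |⟪w, e x' - e x⟫| ≤ C * ‖w‖ * ‖e x' - e x‖ ^ 2 := by
  let p : Set (M × M) → Prop := fun S => ∃ C : ℝ, 0 ≤ C ∧ ∀ q ∈ S,
    ∀ w ∈ normalSpace (E := E) e q.1, |⟪w, e q.2 - e q.1⟫| ≤ C * ‖w‖ * ‖e q.2 - e q.1‖ ^ 2
  suffices h : p univ by
    obtain ⟨C, hC, h⟩ := h
    exact ⟨C, hC, fun x x' => h (x, x') (mem_univ _)⟩
  refine isCompact_univ.induction_on (p := p) ⟨0, le_rfl, by simp⟩ ?_ ?_ ?_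
  · rintro s t hst ⟨C, hC, h⟩
    exact ⟨C, hC, fun q hq => h q (hst hq)⟩
  · rintro s t ⟨C, hC, h⟩ ⟨C', hC', h'⟩
    refine ⟨max C C', hC.trans (le_max_left _ _), fun q hq w hw => ?_⟩
    rcases hq with hq | hq
    · exact (h q hq w hw).trans (by gcongr; exact le_max_left _ _)
    · exact (h' q hq w hw).trans (by gcongr; exact le_max_right _ _)
  rintro ⟨x, x'⟩ -
  by_cases hxx : x = x'
  · subst hxx
    set P := Chord.Par.chart (E := E) x
    obtain ⟨hF, hd⟩ := chart_data (e := e) he himm x
    set F := e ∘ P.ψ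
    set z₀ := P.φ x
    have hx : x ∈ P.W := mem_extChartAt_source x
    have hz₀ : z₀ ∈ P.U := P.mapsφ hx
    have hFat : ContDiffAt ℝ ∞ F z₀ := hF.contDiffAt (P.openU.mem_nhds hz₀)
    obtain ⟨K, hK, hAK⟩ := LinearMap.exists_antilipschitzWith (fderiv ℝ F z₀).toLinearMap
      (LinearMap.ker_eq_bot.2 (hd z₀ hz₀).1)
    obtain ⟨L, T, hT, hL⟩ := ((hFat.fderiv_right (m := 1) (by norm_cast)).exists_lipschitzOnWith)
    have hKpos : (0 : ℝ) < K := NNReal.coe_pos.2 hK
    obtain ⟨r, hr, hball⟩ := Metric.mem_nhds_iff.1 (inter_mem (P.openU.mem_nhds hz₀) (inter_mem hT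
      ((hFat.continuousAt_fderiv (by simp)).preimage_mem_nhds
        (Metric.closedBall_mem_nhds _ (ε := 1 / (2 * (K : ℝ))) (by positivity)))))
    refine ⟨(P.W ∩ P.φ ⁻¹' ball z₀ r) ×ˢ (P.W ∩ P.φ ⁻¹' ball z₀ r), ?_,
      4 * K ^ 2 * L, by positivity, ?_⟩
    · have hn : P.W ∩ P.φ ⁻¹' ball z₀ r ∈ 𝓝 x := inter_mem (P.openW.mem_nhds hx)
        ((P.smoothφ.continuousOn.continuousAt (P.openW.mem_nhds hx)).preimage_mem_nhds
          (ball_mem_nhds _ hr))
      exact mem_nhdsWithin_of_mem_nhds (prod_mem_nhds hn hn)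
    rintro ⟨a, b⟩ ⟨⟨ha, haz⟩, ⟨hb, hbz⟩⟩ w hw
    set z := P.φ a
    set z' := P.φ b
    have hdiff : ∀ u ∈ ball z₀ r, DifferentiableAt ℝ F u := fun u hu =>
      (hF.differentiableOn (by simp)).differentiableAt (P.openU.mem_nhds (hball hu).1)
    have hfa : e a = F z := by simp [F, z, P.right a ha]
    have hfb : e b = F z' := by simp [F, z', P.right b hb]
    have hlow : ‖z' - z‖ ≤ 2 * K * ‖F z' - F z‖ := by
      have h1 : ‖F z' - F z - fderiv ℝ F z₀ (z' - z)‖ ≤ 1 / (2 * K) * ‖z' - z‖ :=
        (convex_ball z₀ r).norm_image_sub_le_of_norm_fderiv_le' hdiff (fun u hu => by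
          simpa [dist_eq_norm] using (hball hu).2.2) haz hbz
      have h2 : ‖z' - z‖ ≤ K * ‖fderiv ℝ F z₀ (z' - z)‖ := by
        simpa using ZeroHomClass.bound_of_antilipschitz (fderiv ℝ F z₀) hAK (z' - z)
      have h3 : ‖fderiv ℝ F z₀ (z' - z)‖ ≤ ‖F z' - F z‖ + 1 / (2 * K) * ‖z' - z‖ :=
        (norm_le_norm_add_norm_sub' _ (F z' - F z)).trans (by rw [norm_sub_rev (fderiv ℝ F z₀ _)]; linarith)
      have h4 := h2.trans (mul_le_mul_of_nonneg_left h3 hKpos.le)
      rw [mul_add, show (K : ℝ) * (1 / (2 * K) * ‖z' - z‖) = ‖z' - z‖ / 2 by field_simp] at h4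
      linarith
    have hrem : ‖F z' - F z - fderiv ℝ F z (z' - z)‖ ≤ L * ‖z' - z‖ * ‖z' - z‖ := by
      have hseg : segment ℝ z z' ⊆ ball z₀ r := (convex_ball z₀ r).segment_subset haz hbz
      refine (convex_segment z z').norm_image_sub_le_of_norm_fderiv_le'
        (fun u hu => hdiff u (hseg hu)) (fun u hu => ?_) (left_mem_segment _ _ _)
        (right_mem_segment _ _ _)
      refine ((lipschitzOnWith_iff_norm_sub_le.1 hL) (hball (hseg hu)).2.1 (hball haz).2.1).trans ?_
      refine mul_le_mul_of_nonneg_left ?_ L.2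
      rw [← segment_symm] at hu
      exact norm_sub_le_of_mem_segment (by rwa [segment_symm] at hu)
    have hinner : ⟪w, fderiv ℝ F z (z' - z)⟫ = 0 := by
      have h := (hd z (P.mapsφ ha)).2
      rw [P.right a ha] at h
      exact Submodule.inner_right_of_mem_orthogonal hw (h ▸ LinearMap.mem_range_self _ (z' - z))
    show |⟪w, e b - e a⟫| ≤ _
    rw [hfa, hfb, ← sub_add_cancel (F z' - F z) (fderiv ℝ F z (z' - z)), inner_add_right, hinner,
      add_zero, sub_add_cancel]
    refine (abs_real_inner_le_norm _ _).trans ((mul_le_mul_of_nonneg_left hrem (norm_nonneg _)).trans ?_)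
    calc ‖w‖ * (L * ‖z' - z‖ * ‖z' - z‖)
        ≤ ‖w‖ * (L * (2 * K * ‖F z' - F z‖) * (2 * K * ‖F z' - F z‖)) := by gcongr
      _ = 4 * K ^ 2 * L * ‖w‖ * ‖F z' - F z‖ ^ 2 := by ring
  · have hpos : 0 < ‖e x' - e x‖ := norm_pos_iff.2 (sub_ne_zero.2 fun h => hxx (hinj h).symm)
    refine ⟨{q | ‖e x' - e x‖ / 2 < ‖e q.2 - e q.1‖}, ?_, 2 / ‖e x' - e x‖, by positivity,
      fun q hq w _ => ?_⟩
    · refine mem_nhdsWithin_of_mem_nhds (IsOpen.mem_nhds ?_ (half_lt_self hpos))
      exact isOpen_lt continuous_const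
        ((he.continuous.comp continuous_snd).sub (he.continuous.comp continuous_fst)).norm
    · refine (abs_real_inner_le_norm _ _).trans ?_
      have h1 : 1 ≤ 2 / ‖e x' - e x‖ * ‖e q.2 - e q.1‖ := by
        rw [div_mul_eq_mul_div, one_le_div hpos]
        linarith [show ‖e x' - e x‖ / 2 < ‖e q.2 - e q.1‖ from hq]
      nlinarith [mul_le_mul_of_nonneg_left h1 (mul_nonneg (norm_nonneg w)
        (norm_nonneg (e q.2 - e q.1)))]

/-- A closed manifold cannot be deformed into a proper subset. -/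
theorem surjective_of_homotopy_id {E : Type*} [NormedAddCommGroup E] [NormedSpace ℝ E]
    [FiniteDimensional ℝ E] {M : Type*} [TopologicalSpace M] [ChartedSpace E M]
    [IsManifold 𝓘(ℝ, E) ∞ M] [T2Space M] [CompactSpace M] (H : ℝ × M → M) (hH : Continuous H) (h0 : ∀ x, H (0, x) = x)
    (q : M) : ∃ x, H (1, x) = q := by
  obtain ⟨N, e, he, hemb, himm⟩ := exists_embedding_euclidean_of_compact (I := 𝓘(ℝ, E)) (M := M)
  have hinj := hemb.injective
  haveI : Nonempty M := ⟨q⟩
  obtain ⟨C, hC0, hC⟩ := exists_secant_bound (e := e) he hinj himm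
  set δ : ℝ := 1 / (2 * C + 1) with hδd
  have hδ : 0 < δ := by positivity
  have huniq : ∀ x x' : M, ∀ w ∈ normalSpace (E := E) e x, ∀ w' ∈ normalSpace (E := E) e x',
      ‖w‖ ≤ δ → ‖w'‖ ≤ δ → e x + w = e x' + w' → x = x' := by
    intro x x' w hw w' hw' hwn hwn' heq
    have hd : e x' - e x = w - w' := by
      rw [sub_eq_sub_iff_add_eq_add]; exact heq.symm.trans (add_comm _ _)
    have h1 := hC x x' w hw
    have h2 := hC x' x w' hw'
    rw [show e x - e x' = -(e x' - e x) by abel, inner_neg_right, abs_neg, norm_neg] at h2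
    have h3 : ‖e x' - e x‖ ^ 2 = ⟪w, e x' - e x⟫ - ⟪w', e x' - e x⟫ := by
      rw [← inner_sub_left, ← hd, real_inner_self_eq_norm_sq]
    have h4 : C * ‖w‖ + C * ‖w'‖ < 1 := by
      calc C * ‖w‖ + C * ‖w'‖ ≤ C * δ + C * δ := by gcongr
        _ < 1 := by
          rw [hδd, ← two_mul, ← mul_assoc, mul_one_div, div_lt_one (by positivity)]
          linarith
    have h5 : ‖e x' - e x‖ ^ 2 ≤ (C * ‖w‖ + C * ‖w'‖) * ‖e x' - e x‖ ^ 2 := by
      rw [add_mul]
      linarith [(abs_le.1 h1).2, (abs_le.1 h2).1]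
    have h6 : ‖e x' - e x‖ = 0 := by
      by_contra h
      nlinarith [pow_pos (lt_of_le_of_ne (norm_nonneg (e x' - e x)) (Ne.symm h)) 2]
    exact (hinj (sub_eq_zero.1 (norm_eq_zero.1 h6))).symm
  have hnear : ∀ y : EuclideanSpace ℝ (Fin N), ∃ x : M, ∀ x', ‖y - e x‖ ≤ ‖y - e x'‖ := by
    intro y
    obtain ⟨x, -, hx⟩ := isCompact_univ.exists_isMinOn univ_nonempty
      (continuous_const.sub he.continuous).norm.continuousOn
    exact ⟨x, fun x' => hx (mem_univ x')⟩
  choose r hr using hnear
  have hperp : ∀ y x, (∀ x', ‖y - e x‖ ≤ ‖y - e x'‖) → y - e x ∈ normalSpace (E := E) e x := by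
    intro y x hx
    set P := Chord.Par.chart (E := E) x
    obtain ⟨hF, hd⟩ := chart_data (e := e) he himm x
    have hxW : x ∈ P.W := mem_extChartAt_source x
    have hz : P.φ x ∈ P.U := P.mapsφ hxW
    have h := (hd _ hz).2
    rw [P.right x hxW] at h
    rw [← Submodule.orthogonal_orthogonal (normalSpace (E := E) e x), ← h,
      Submodule.mem_orthogonal']
    rintro _ ⟨u, rfl⟩
    have hdF := ((hF.differentiableOn (by simp)).differentiableAt
      (P.openU.mem_nhds hz)).hasFDerivAt
    have hmin : IsLocalMin (fun z => ‖y - (e ∘ P.ψ) z‖ ^ 2) (P.φ x) := by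
      refine Eventually.of_forall fun z => ?_
      show ‖y - e (P.ψ (P.φ x))‖ ^ 2 ≤ ‖y - e (P.ψ z)‖ ^ 2
      rw [P.right x hxW]
      exact pow_le_pow_left₀ (norm_nonneg _) (hx _) 2
    have h0 := congrArg (fun T : E →L[ℝ] ℝ => T u)
      (hmin.hasFDerivAt_eq_zero (hdF.const_sub y).norm_sq)
    have hxe : (Chord.Par.chart (E := E) x).ψ (P.φ x) = x := P.right x hxW
    simp [inner_sub_left] at h0
    rw [hxe] at h0
    simp [inner_sub_left]
    linarith
  set O : Set (EuclideanSpace ℝ (Fin N)) := thickening (δ / 2) (range e)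
  have hcl : ∀ y ∈ closure O, ‖y - e (r y)‖ ≤ δ / 2 := by
    intro y hy
    have hy' := closure_thickening_subset_cthickening (δ / 2) (range e) hy
    rw [(isCompact_range he.continuous).cthickening_eq_biUnion_closedBall (by positivity)] at hy'
    simp only [mem_iUnion, mem_closedBall, dist_eq_norm] at hy'
    obtain ⟨_, ⟨x, rfl⟩, hx⟩ := hy'
    exact (hr y x).trans hx
  have hOc : IsCompact (closure O) :=
    ((isCompact_range he.continuous).cthickening (r := δ / 2)).of_isClosed_subset isClosed_closure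
      (closure_thickening_subset_cthickening _ _)
  have hrc : ContinuousOn r (closure O) := by
    rw [continuousOn_iff_isClosed]
    intro A hA
    refine ⟨Prod.fst '' {z : EuclideanSpace ℝ (Fin N) × M |
      z.2 ∈ A ∧ ∀ x', ‖z.1 - e z.2‖ ≤ ‖z.1 - e x'‖}, ?_, ?_⟩
    · refine isClosedMap_fst_of_compactSpace _ ((hA.preimage continuous_snd).inter ?_)
      have h := isClosed_iInter fun x' : M => isClosed_le
        ((continuous_fst (X := EuclideanSpace ℝ (Fin N)) (Y := M)).sub
          (he.continuous.comp continuous_snd)).norm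
        (continuous_fst.sub (continuous_const (y := e x'))).norm
      exact (congrArg IsClosed (Set.ext fun z => by simp [mem_iInter]; rfl)).mpr h
    · ext y
      constructor
      · rintro ⟨hy, hcy⟩
        exact ⟨⟨(y, r y), ⟨hy, hr y⟩, rfl⟩, hcy⟩
      · rintro ⟨⟨⟨y', x⟩, ⟨hxA, hmin⟩, rfl⟩, hcy⟩
        refine ⟨?_, hcy⟩
        have hle : ‖y' - e (r y')‖ ≤ δ := (hcl y' hcy).trans (by linarith)
        show r y' ∈ A
        rwa [huniq (r y') x _ (hperp _ _ (hr y')) _ (hperp _ _ hmin) hle
          ((hmin _).trans hle) (by abel)]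
  set Pn := normalProj (E := E) e
  have hPc : Continuous Pn := continuous_normalProj he himm
  let B : ℝ → C(M, EuclideanSpace ℝ (Fin N) →L[ℝ] EuclideanSpace ℝ (Fin N)) :=
    (ContinuousMap.curry ⟨fun z : ℝ × M => Pn (H z), hPc.comp hH⟩)
  have hB : UniformContinuousOn B (Icc 0 1) :=
    isCompact_Icc.uniformContinuousOn_of_continuous (map_continuous _).continuousOn
  obtain ⟨η, hη, hBη⟩ := Metric.uniformContinuousOn_iff.1 hB (1 / 2) (by norm_num)
  obtain ⟨K, hKη⟩ := exists_nat_gt (1 / η)
  have hK0 : (0 : ℝ) < K := lt_trans (by positivity) hKη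
  let T : ℕ → ℝ × M → EuclideanSpace ℝ (Fin N) →L[ℝ] EuclideanSpace ℝ (Fin N) := fun i =>
    Nat.rec (fun z => Pn (H (0, z.2)))
      (fun j f z => (Pn (H (min z.1 ((j + 1 : ℕ) / K), z.2))).comp (f z)) i
  have hTc : ∀ i, Continuous (T i) := by
    intro i
    induction i with
    | zero => exact hPc.comp (hH.comp (continuous_const.prodMk continuous_snd))
    | succ i ih =>
      exact (hPc.comp (hH.comp ((continuous_fst.min continuous_const).prodMk
        continuous_snd))).clm_comp ih
  have hT : ∀ i : ℕ, ∀ t ∈ Icc (0 : ℝ) 1, ∀ x, ∀ w ∈ normalSpace (E := E) e x,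
      T i (t, x) w ∈ normalSpace (E := E) e (H (min t (i / K), x)) ∧
        ‖T i (t, x) w‖ ≤ ‖w‖ ∧ (w ≠ 0 → T i (t, x) w ≠ 0) ∧ (t = 0 → T i (t, x) w = w) := by
    intro i t ht x w hw
    induction i with
    | zero =>
      have hfix : T 0 (t, x) w = w := by
        show (normalSpace (E := E) e (H (0, x))).starProjection w = w
        rw [h0, Submodule.starProjection_eq_self_iff]
        exact hw
      rw [hfix]
      simp only [Nat.cast_zero, zero_div, min_eq_right ht.1, h0]
      exact ⟨hw, le_rfl, id, fun _ => trivial⟩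
    | succ i ih =>
      obtain ⟨h1, h2, h3, h4⟩ := ih
      set u := T i (t, x) w with hu
      set s := min t ((i : ℝ) / K)
      set s' := min t (((i + 1 : ℕ) : ℝ) / K) with hs'
      have hT' : T (i + 1) (t, x) w =
          (normalSpace (E := E) e (H (s', x))).starProjection u := rfl
      refine ⟨?_, ?_, fun hw0 hc => h3 hw0 ?_, fun h => ?_⟩
      · rw [hT']; exact Submodule.starProjection_apply_mem _ _
      · rw [hT']; exact (Submodule.norm_starProjection_apply_le _ _).trans h2
      · rw [hT'] at hc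
        have hs : s ∈ Icc (0 : ℝ) 1 := ⟨le_min ht.1 (by positivity), (min_le_left _ _).trans ht.2⟩
        have hs'I : s' ∈ Icc (0 : ℝ) 1 :=
          ⟨le_min ht.1 (by positivity), (min_le_left _ _).trans ht.2⟩
        have hd : dist s' s < η := by
          rw [Real.dist_eq]
          refine (abs_min_sub_min_le_max _ _ _ _).trans_lt (max_lt (by simpa using hη) ?_)
          rw [Nat.cast_succ, add_div, add_sub_cancel_left, abs_of_pos (by positivity),
            div_lt_iff₀ hK0]
          exact (div_lt_iff₀ hη).1 hKη |>.trans_le (le_of_eq (mul_comm _ _))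
        have hn : ‖Pn (H (s', x)) - Pn (H (s, x))‖ < 1 / 2 := by
          have := ((ContinuousMap.dist_apply_le_dist x).trans_lt (hBη _ hs'I _ hs hd))
          rwa [dist_eq_norm] at this
        have hfix : Pn (H (s, x)) u = u :=
          Submodule.starProjection_eq_self_iff.2 h1
        have hz : Pn (H (s', x)) u = 0 := hc
        have hle := (Pn (H (s', x)) - Pn (H (s, x))).le_opNorm u
        rw [ContinuousLinearMap.sub_apply, hz, hfix, zero_sub, norm_neg] at hle
        by_contra hne
        nlinarith [norm_pos_iff.2 hne]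
      · rw [hT']
        have hs0 : s' = 0 := by
          rw [hs', h]; exact min_eq_left (by positivity)
        rw [hs0, h0, show u = w from h4 h, Submodule.starProjection_eq_self_iff]
        exact hw
  let G : ℝ × EuclideanSpace ℝ (Fin N) → EuclideanSpace ℝ (Fin N) := fun z =>
    e (H (z.1, r z.2)) + T K (z.1, r z.2) (z.2 - e (r z.2))
  have hGc : ContinuousOn G (Icc 0 1 ×ˢ closure O) := by
    have hr2 : ContinuousOn (fun z : ℝ × EuclideanSpace ℝ (Fin N) => r z.2) (Icc 0 1 ×ˢ closure O) :=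
      hrc.comp continuous_snd.continuousOn fun z hz => hz.2
    exact ((he.continuous.comp hH).comp_continuousOn (continuous_fst.continuousOn.prodMk hr2)).add
      (((hTc K).comp_continuousOn (continuous_fst.continuousOn.prodMk hr2)).clm_apply
        (continuous_snd.continuousOn.sub (he.continuous.comp_continuousOn hr2)))
  have hG0 : ∀ y ∈ closure O, G (0, y) = y := by
    intro y _
    show e (H (0, r y)) + T K (0, r y) (y - e (r y)) = y
    rw [((hT K 0 ⟨le_rfl, zero_le_one⟩ (r y) _ (hperp _ _ (hr y))).2.2.2 rfl), h0]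
    abel
  have hzero : ∀ t ∈ Icc (0 : ℝ) 1, ∀ y ∈ closure O, G (t, y) = e q →
      y = e (r y) ∧ H (t, r y) = q := by
    intro t ht y hy he'
    have hw := hperp _ _ (hr y)
    obtain ⟨h1, h2, h3, -⟩ := hT K t ht (r y) _ hw
    rw [div_self hK0.ne', min_eq_left ht.2] at h1
    have hq' : H (t, r y) = q := huniq _ q _ h1 0 (Submodule.zero_mem _)
      (h2.trans ((hcl y hy).trans (by linarith))) (by rw [norm_zero]; exact hδ.le)
      (by rw [add_zero]; exact he')
    refine ⟨?_, hq'⟩
    by_contra hne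
    refine h3 (sub_ne_zero.2 hne) ?_
    have h' : e (H (t, r y)) + T K (t, r y) (y - e (r y)) = e q := he'
    rwa [hq', add_eq_left] at h'
  obtain ⟨y, hy, hy1⟩ := exists_eq_of_homotopy_id isOpen_thickening hOc G hGc hG0 (q := e q)
    (self_subset_thickening (by positivity) _ (mem_range_self q)) fun t ht y hy he' => by
      have h := (hzero t ht y (frontier_subset_closure hy) he').1
      refine hy.2 ?_
      rw [isOpen_thickening.interior_eq]
      exact self_subset_thickening (by positivity) _ ⟨r y, h.symm⟩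
  exact ⟨r y, (hzero 1 ⟨zero_le_one, le_rfl⟩ y (subset_closure hy) hy1).2⟩

end Manifold

end

end Vale.Agent.P216.Sym
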