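import Vale.Agent.P216.Sym.Shorten
import Vale.Agent.P216.Sym.Degree

/-!
An isometric involution with a fixed point, other than the identity, has a symmetric closed
geodesic: otherwise the manifold would deform into the fixed set.
-/

open Set Filter Metric Manifold Bundle
open scoped Topology ContDiff

namespace Vale.Agent.P216.Sym

open Vale.Agent.P216.Chord

set_option maxSynthPendingDepth 3

noncomputable section

variable {E : Type*} [NormedAddCommGroup E] [NormedSpace ℝ E] [FiniteDimensional ℝ E]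
  {M : Type*} [TopologicalSpace M] [ChartedSpace E M] [IsManifold 𝓘(ℝ, E) ∞ M]
  [T2Space M] [CompactSpace M] [PreconnectedSpace M]
  {g : ContMDiffRiemannianMetric 𝓘(ℝ, E) ∞ E (fun x : M => TangentSpace 𝓘(ℝ, E) x)}
  {ρ : ℝ} {σ : M → M}

variable (g) in
/-- A nonconstant periodic curve, locally a segment, symmetric under `σ`. -/
def HasSymGeo (σ : M → M) : Prop :=
  ∃ D τ c, 0 < D ∧ 0 < τ ∧ IsLocalGeo g D c ∧ (∀ t, c (t + τ) = c t) ∧ ∀ v, c (-v) = σ (c v)

omit [FiniteDimensional ℝ E] in
/-- The symmetric polygon inscribed in a path with fixed ends. -/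
theorem exists_inscribed (hσ : IsInvol g σ) {Q : Type*} [TopologicalSpace Q] (f : C(Q × unitInterval, M))
    (hσc : Continuous σ) (hf : FixedEnds σ f) {r : ℝ} {K : ℕ} (hK : 0 < K)
    (hmod : ∀ q (u v : unitInterval), |(u : ℝ) - v| ≤ 1 / K → gdist g (f (q, u)) (f (q, v)) ≤ r) :
    ∃ Y : Q → ZMod (2 * K) → M, Continuous Y ∧ (∀ q, IsPoly g σ r (Y q)) ∧
      ∀ q (u : unitInterval) (j : ℕ), j ≤ K → (j : ℝ) / K = u → Y q (j : ZMod (2 * K)) = f (q, u) := by
  haveI : NeZero (2 * K) := ⟨by omega⟩
  have hK' : (0 : ℝ) < K := Nat.cast_pos.2 hK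
  let p : ℕ → unitInterval := fun m => projIcc (0 : ℝ) 1 zero_le_one ((m : ℝ) / K)
  have hp : ∀ m, m ≤ K → (p m : ℝ) = m / K := fun m hm => by
    simp only [p]
    rw [projIcc_of_mem _ ⟨by positivity, (div_le_one hK').2 (Nat.cast_le.2 hm)⟩]
  let F : Q → ℕ → M := fun q m => if m ≤ K then f (q, p m) else σ (f (q, p (2 * K - m)))
  have hp0 : p 0 = 0 := Subtype.ext (by simpa using hp 0 (Nat.zero_le _))
  have hpK : p K = 1 := Subtype.ext (by rw [hp K le_rfl, div_self hK'.ne']; rfl)
  have hF : ∀ q m, m ≤ 2 * K → F q (2 * K - m) = σ (F q m) := by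
    intro q m hm
    rcases lt_trichotomy m K with h | rfl | h
    · simp only [F, if_pos h.le, if_neg (show ¬ 2 * K - m ≤ K by omega),
        show 2 * K - (2 * K - m) = m by omega]
    · simp only [F, if_pos le_rfl, show 2 * m - m = m by omega, hpK, (hf q).2]
    · simp only [F, if_neg (show ¬ m ≤ K by omega), if_pos (show 2 * K - m ≤ K by omega), hσ.2]
  have hF2 : ∀ q, F q (2 * K) = F q 0 := fun q => by
    have := hF q 0 (Nat.zero_le _)
    rw [Nat.sub_zero] at this
    rw [this]
    simp only [F, if_pos (Nat.zero_le K), hp0, (hf q).1]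
  have hedge : ∀ q m, m < 2 * K → gdist g (F q m) (F q (m + 1)) ≤ r := by
    have h1 : ∀ q m, m < K → gdist g (F q m) (F q (m + 1)) ≤ r := fun q m hm => by
      simp only [F, if_pos hm.le, if_pos (show m + 1 ≤ K from hm)]
      refine hmod q _ _ ?_
      rw [hp m hm.le, hp (m + 1) hm, ← sub_div, abs_div, abs_of_pos hK']
      push_cast
      simp
    intro q m hm
    by_cases h : m < K
    · exact h1 q m h
    · have h2 := h1 q (2 * K - (m + 1)) (by omega)
      rw [← hσ.1, ← hF q m hm.le, ← hF q (m + 1) hm, gdist_comm,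
        show 2 * K - m = 2 * K - (m + 1) + 1 by omega]
      exact h2
  refine ⟨fun q j => F q j.val, continuous_pi fun j => ?_, fun q => ⟨fun j => ?_, fun j => ?_⟩,
    fun q u j hj hu => ?_⟩
  · by_cases h : j.val ≤ K
    · simp only [F, if_pos h]
      exact f.continuous.comp (continuous_id.prodMk continuous_const)
    · simp only [F, if_neg h]
      exact hσc.comp (f.continuous.comp (continuous_id.prodMk continuous_const))
  · show F q (-j).val = σ (F q j.val)
    rw [ZMod.neg_val]
    by_cases h : j = 0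
    · simp only [h, if_true, ZMod.val_zero, F, if_pos (Nat.zero_le K), hp0, (hf q).1]
    · rw [if_neg h]
      exact hF q _ (ZMod.val_lt j).le
  · show gdist g (F q j.val) (F q (j + 1).val) ≤ r
    have hj := ZMod.val_lt j
    have hv : (j + 1).val = (j.val + 1) % (2 * K) := by
      rw [ZMod.val_add, ZMod.val_one_eq_one_mod, Nat.add_mod_mod]
    rw [hv]
    by_cases h : j.val + 1 < 2 * K
    · rw [Nat.mod_eq_of_lt h]; exact hedge q _ hj
    · have h' : j.val + 1 = 2 * K := by omega
      have h'' := hedge q _ hj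
      rw [h', hF2] at h''
      rwa [h', Nat.mod_self]
  · show F q (j : ZMod (2 * K)).val = f (q, u)
    rw [ZMod.val_natCast, Nat.mod_eq_of_lt (by omega)]
    simp only [F, if_pos hj]
    congr 2
    exact Subtype.ext ((hp j hj).trans hu)

/-- Without a symmetric geodesic, families of paths between fixed points contract. -/
theorem contract (hρ : UniqueRadius g ρ) (hσ : IsInvol g σ) (hσc : Continuous σ)
    (hno : ¬ HasSymGeo g σ) {Q : Type*} [TopologicalSpace Q] [CompactSpace Q]
    (f : C(Q × unitInterval, M)) (hf : FixedEnds σ f) :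
    ∃ f' : C(Q × unitInterval, M), f.HomotopicWith f' (FixedEnds σ) ∧
      ∀ q u, f' (q, u) = f' (q, 0) := by
  letI := gMetricSpace g
  set r := ρ / 8 with hr
  have hρ0 := hρ.1
  have hr0 : 0 < r := by positivity
  have hrρ : r < ρ := by linarith
  let fc : C(unitInterval, C(Q, M)) :=
    (f.comp ⟨Prod.swap, continuous_swap⟩).curry
  obtain ⟨η, hη, hfη⟩ := Metric.uniformContinuous_iff.1
    (CompactSpace.uniformContinuous_of_continuous fc.continuous) r hr0
  obtain ⟨K, hKη⟩ := exists_nat_gt (1 / η)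
  have hK' : (0 : ℝ) < K := lt_trans (by positivity) hKη
  have hK : 0 < K := Nat.cast_pos.1 hK'
  have hmod : ∀ q (u v : unitInterval), |(u : ℝ) - v| ≤ 1 / K →
      gdist g (f (q, u)) (f (q, v)) ≤ r := by
    intro q u v huv
    have h1 : dist u v < η := by
      rw [Subtype.dist_eq, Real.dist_eq]
      exact huv.trans_lt ((one_div_lt hη hK').1 hKη)
    exact ((ContinuousMap.dist_apply_le_dist q).trans (hfη h1).le)
  haveI : NeZero (2 * K) := ⟨by omega⟩
  obtain ⟨Y, hYc, hY, hYf⟩ := exists_inscribed hσ f hσc hf hK hmod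
  have hloc : ∀ u : unitInterval, ∃ j : ℕ, j ≤ K ∧
      (u : ℝ) * K ∈ Icc ((j : ℤ) : ℝ) ((j : ℤ) + 1) := fun u => by
    refine ⟨⌊(u : ℝ) * K⌋₊, ?_, ?_⟩
    · exact Nat.floor_le_of_le (by nlinarith [u.2.2])
    · push_cast
      exact ⟨Nat.floor_le (mul_nonneg u.2.1 hK'.le), (Nat.lt_floor_add_one _).le⟩
  have interp : ∀ Z : Q → ZMod (2 * K) → M, Continuous Z → (∀ q, IsPoly g σ r (Z q)) →
      ∃ φ : C(Q × unitInterval, M), FixedEnds σ φ ∧
        ∀ q (u : unitInterval), φ (q, u) = curve g (Z q) ((u : ℝ) * K) := by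
    intro Z hZc hZ
    have hc : Continuous fun z : Q × unitInterval => curve g (Z z.1) ((z.2 : ℝ) * K) :=
      (continuousOn_curve hρ Z hZc (fun q j => ((hZ q).2 j).trans_lt hrρ) K).comp_continuous
        (continuous_fst.prodMk ((continuous_subtype_val.comp continuous_snd).mul continuous_const))
        fun z => ⟨mem_univ _, mul_nonneg z.2.2.1 hK'.le, by
          show (z.2 : ℝ) * K ≤ K
          nlinarith [z.2.2.2]⟩
    refine ⟨⟨_, hc⟩, fun q => ⟨?_, ?_⟩, fun q u => rfl⟩
    · show σ (curve g (Z q) (((0 : unitInterval) : ℝ) * K)) =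
        curve g (Z q) (((0 : unitInterval) : ℝ) * K)
      have h := curve_neg hρ hσ hrρ (hZ q) 0
      simpa using h.symm
    · show σ (curve g (Z q) (((1 : unitInterval) : ℝ) * K)) =
        curve g (Z q) (((1 : unitInterval) : ℝ) * K)
      have h := curve_neg hρ hσ hrρ (hZ q) (K : ℝ)
      have h2 := curve_periodic (g := g) (y := Z q) (-(K : ℝ))
      rw [show -(K : ℝ) + ((2 * K : ℕ) : ℝ) = K by push_cast; ring] at h2
      rw [Icc.coe_one, one_mul, ← h]
      exact h2.symm
  obtain ⟨φ₀, hφ₀, hφ₀e⟩ := interp Y hYc hY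
  have hstep0 : f.HomotopicWith φ₀ (FixedEnds σ) := by
    refine homotopicWith_of_near hρ hσ (fun ⟨q, u⟩ => ?_) hf hφ₀
    obtain ⟨j, hj, hju⟩ := hloc u
    set v : unitInterval := ⟨(j : ℝ) / K, by positivity, (div_le_one hK').2 (Nat.cast_le.2 hj)⟩
    have h1 : gdist g (f (q, u)) (f (q, v)) ≤ r := hmod q u v <| by
      show |(u : ℝ) - j / K| ≤ 1 / K
      push_cast at hju
      rw [abs_le, show (u : ℝ) - j / K = ((u : ℝ) * K - j) / K by field_simp, ← neg_div,
        div_le_div_iff_of_pos_right hK', div_le_div_iff_of_pos_right hK']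
      exact ⟨by linarith [hju.1], by linarith [hju.2]⟩
    have h2 := gdist_curve_le (y := Y q) (hY q).2 hju
    rw [Int.cast_natCast, hYf q v j hj rfl] at h2
    rw [hφ₀e]
    linarith [gdist_triangle (g := g) (f (q, u)) (f (q, v)) (curve g (Y q) ((u : ℝ) * K))]
  have hno' : ∀ y : ZMod (2 * K) → M, IsPoly g σ r y → 0 < energy g y →
      energy g (shorten g y) < energy g y := fun y hy hpos =>
    not_le.1 fun h => hno (exists_localGeo hρ hσ hrρ hy h hpos)
  set ε : ℝ := r / (K + 1) with hεd
  have hε : 0 < ε := by positivity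
  obtain ⟨N, hN⟩ := exists_iterate_short (n := 2 * K) hρ hσ hσc hrρ hno' (ε := ε ^ 2) (by positivity)
  have hiter : ∀ k, Continuous (fun q => (shorten g)^[k] (Y q)) ∧
      (∀ q, IsPoly g σ r ((shorten g)^[k] (Y q))) ∧ ∀ φ : C(Q × unitInterval, M), FixedEnds σ φ →
      (∀ q (u : unitInterval), φ (q, u) = curve g ((shorten g)^[k] (Y q)) ((u : ℝ) * K)) →
      f.HomotopicWith φ (FixedEnds σ) := by
    intro k
    induction k with
    | zero =>
      refine ⟨hYc, hY, fun φ hφ hφe => ?_⟩
      rwa [show φ = φ₀ from ContinuousMap.ext fun ⟨q, u⟩ => (hφe q u).trans (hφ₀e q u).symm]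
    | succ k ih =>
      obtain ⟨hc, hp, hh⟩ := ih
      simp only [Function.iterate_succ_apply']
      refine ⟨(continuousOn_shorten hρ hrρ).comp_continuous hc hp,
        fun q => (hp q).shorten hρ hσ hrρ, fun φ hφ hφe => ?_⟩
      obtain ⟨ψ, hψ, hψe⟩ := interp _ hc hp
      refine (hh ψ hψ hψe).trans (homotopicWith_of_near hρ hσ (fun ⟨q, u⟩ => ?_) hψ hφ)
      obtain ⟨j, hj, hju⟩ := hloc u
      rw [hψe, hφe]
      set y := (shorten g)^[k] (Y q)
      have h1 := gdist_curve_le (hp q).2 hju
      have h2 := gdist_curve_le ((hp q).shorten hρ hσ hrρ).2 hju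
      have h3 := gdist_shorten_self (hp q).2 ((j : ℤ) : ZMod (2 * K))
      linarith [gdist_triangle (g := g) (curve g y ((u : ℝ) * K)) (y ((j : ℤ) : ZMod (2 * K)))
        (curve g (shorten g y) ((u : ℝ) * K)), gdist_triangle (g := g) (y ((j : ℤ) : ZMod (2 * K)))
        (shorten g y ((j : ℤ) : ZMod (2 * K))) (curve g (shorten g y) ((u : ℝ) * K)),
        gdist_comm (g := g) (y ((j : ℤ) : ZMod (2 * K))) (curve g y ((u : ℝ) * K))]
  obtain ⟨hc, hp, hh⟩ := hiter N
  obtain ⟨φ, hφ, hφe⟩ := interp _ hc hp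
  set Z : Q → ZMod (2 * K) → M := fun q => (shorten g)^[N] (Y q)
  have hZ0 : ∀ q, σ (Z q 0) = Z q 0 := fun q => by simpa using ((hp q).1 0).symm
  let f' : C(Q × unitInterval, M) :=
    ⟨fun z => Z z.1 0, ((continuous_apply 0).comp hc).comp continuous_fst⟩
  have hf' : FixedEnds σ f' := fun q => ⟨hZ0 q, hZ0 q⟩
  refine ⟨f', (hh φ hφ hφe).trans (homotopicWith_of_near hρ hσ (fun ⟨q, u⟩ => ?_) hφ hf'),
    fun q u => rfl⟩
  have hs : ∀ i : ZMod (2 * K), gdist g (Z q i) (Z q (i + 1)) ≤ ε := by
    intro i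
    have h1 : gdist g (Z q i) (Z q (i + 1)) ^ 2 ≤ energy g (Z q) :=
      Finset.single_le_sum (f := fun i => gdist g (Z q i) (Z q (i + 1)) ^ 2)
        (fun _ _ => sq_nonneg _) (Finset.mem_univ i)
    exact (pow_le_pow_iff_left₀ (gdist_nonneg _ _) hε.le two_ne_zero).1
      (h1.trans (hN _ (hY q)).le)
  have hsum : ∀ m : ℕ, gdist g (Z q 0) (Z q (m : ZMod (2 * K))) ≤ m * ε := by
    intro m
    induction m with
    | zero => simp [gdist_self]
    | succ m ih =>
      push_cast
      linarith [hs (m : ZMod (2 * K)),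
        gdist_triangle (g := g) (Z q 0) (Z q (m : ZMod (2 * K))) (Z q ((m : ZMod (2 * K)) + 1))]
  obtain ⟨j, hj, hju⟩ := hloc u
  have h2 := gdist_curve_le (y := Z q) hs hju
  rw [Int.cast_natCast] at h2
  rw [hφe]
  show gdist g (curve g (Z q) ((u : ℝ) * K)) (Z q 0) < ρ
  have h3 : ((j : ℝ) + 1) * ε ≤ r := by
    rw [hεd, mul_div_assoc', div_le_iff₀ (by positivity), mul_comm]
    gcongr
  linarith [hsum j, gdist_triangle (g := g) (curve g (Z q) ((u : ℝ) * K))
    (Z q (j : ZMod (2 * K))) (Z q 0),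
    gdist_comm (g := g) (Z q (j : ZMod (2 * K))) (curve g (Z q) ((u : ℝ) * K)),
    gdist_comm (g := g) (Z q (j : ZMod (2 * K))) (Z q 0)]

/-- Two families of paths from the fixed set to the same points, interpolated. -/
theorem connect (hρ : UniqueRadius g ρ) (hσ : IsInvol g σ) (hσc : Continuous σ)
    (hno : ¬ HasSymGeo g σ) {Q : Type*} [TopologicalSpace Q] [CompactSpace Q]
    (a b : C(Q × unitInterval, M)) (ha : ∀ q, σ (a (q, 0)) = a (q, 0))
    (hb : ∀ q, σ (b (q, 0)) = b (q, 0)) (hab : ∀ q, a (q, 1) = b (q, 1)) :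
    ∃ F : C((unitInterval × Q) × unitInterval, M),
      (∀ lam q, σ (F ((lam, q), 0)) = F ((lam, q), 0)) ∧ (∀ lam q, F ((lam, q), 1) = a (q, 1)) ∧
      (∀ q u, F ((0, q), u) = a (q, u)) ∧ ∀ q u, F ((1, q), u) = b (q, u) := by
  let pI : ℝ → unitInterval := projIcc (0 : ℝ) 1 zero_le_one
  have hpI : Continuous pI := continuous_projIcc
  have hpI' : ∀ (u : unitInterval), pI (u : ℝ) = u := fun u => projIcc_val _ _
  let fF : Q × unitInterval → M := fun z =>
    if (z.2 : ℝ) ≤ 1 / 2 then a (z.1, pI (2 * z.2)) else b (z.1, pI (2 - 2 * z.2))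
  have hfc : Continuous fF := by
    refine Continuous.if_le (a.continuous.comp (continuous_fst.prodMk (hpI.comp
      (continuous_const.mul (continuous_subtype_val.comp continuous_snd)))))
      (b.continuous.comp (continuous_fst.prodMk (hpI.comp (continuous_const.sub
      (continuous_const.mul (continuous_subtype_val.comp continuous_snd))))))
      (continuous_subtype_val.comp continuous_snd) continuous_const fun z hz => ?_
    have h1 : pI 1 = 1 := by simp [pI, projIcc_right]
    have h2 : pI (2 - 1) = 1 := by norm_num [pI, projIcc_right]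
    simp [h1, h2, hab, hz]
  have hf0 : ∀ q, fF (q, 0) = a (q, 0) := fun q => by simp [fF, pI, projIcc_left]
  have hf1 : ∀ q, fF (q, 1) = b (q, 0) := fun q => by
    simp [fF, pI, projIcc_left, show ¬ (1 : ℝ) ≤ 2⁻¹ by norm_num]
  obtain ⟨f', ⟨Φ⟩, hconst⟩ := contract hρ hσ hσc hno ⟨fF, hfc⟩ fun q =>
    ⟨by simp [hf0, ha], by simp [hf1, hb]⟩
  let ps : ℝ → ℝ := fun l => min 1 (min (3 * l) (3 - 3 * l))
  let pu : ℝ → ℝ := fun l => 3 * l - 1
  let P : (unitInterval × Q) × unitInterval → unitInterval × (Q × unitInterval) := fun z =>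
    (pI ((1 - (z.2 : ℝ)) * ps z.1.1),
      (z.1.2, pI ((1 - (z.2 : ℝ)) * (pI (pu z.1.1) : ℝ) + (z.2 : ℝ) / 2)))
  have hP : Continuous P := by
    have hl : Continuous fun z : (unitInterval × Q) × unitInterval => (z.1.1 : ℝ) := by fun_prop
    have hw : Continuous fun z : (unitInterval × Q) × unitInterval => (z.2 : ℝ) := by fun_prop
    exact (hpI.comp ((continuous_const.sub hw).mul (continuous_const.min
      ((continuous_const.mul hl).min (continuous_const.sub (continuous_const.mul hl)))))).prodMk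
      ((continuous_snd.comp continuous_fst).prodMk (hpI.comp (((continuous_const.sub hw).mul
        (continuous_subtype_val.comp (hpI.comp ((continuous_const.mul hl).sub continuous_const)))).add
        (hw.div_const 2))))
  have hΦ : ∀ t q, σ (Φ (t, (q, 0))) = Φ (t, (q, 0)) ∧ σ (Φ (t, (q, 1))) = Φ (t, (q, 1)) :=
    fun t q => Φ.prop' t q
  refine ⟨⟨fun z => Φ (P z), (map_continuous Φ).comp hP⟩, fun lam q => ?_, fun lam q => ?_,
    fun q u => ?_, fun q u => ?_⟩
  · show σ (Φ (P ((lam, q), 0))) = Φ (P ((lam, q), 0))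
    simp only [P, Icc.coe_zero, sub_zero, one_mul, zero_div, add_zero, hpI']
    rcases le_or_gt (lam : ℝ) (1 / 3) with h | h
    · rw [show pI (pu lam) = 0 from projIcc_of_le_left _ (by simp [pu]; linarith)]
      exact (hΦ _ q).1
    rcases le_or_gt (2 / 3) (lam : ℝ) with h' | h'
    · rw [show pI (pu lam) = 1 from projIcc_of_right_le _ (by simp [pu]; linarith)]
      exact (hΦ _ q).2
    · rw [show pI (ps lam) = 1 from projIcc_of_right_le _ (by
        simp only [ps, le_min_iff]; exact ⟨le_rfl, by linarith, by linarith⟩)]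
      rw [Φ.apply_one, hconst, ← Φ.apply_one]
      exact (hΦ 1 q).1
  · show Φ (P ((lam, q), 1)) = a (q, 1)
    have h2 : pI (1 / 2) = ⟨1 / 2, by norm_num, by norm_num⟩ := projIcc_of_mem _ _
    simp only [P, Icc.coe_one, sub_self, zero_mul, zero_add]
    rw [show pI 0 = 0 from projIcc_left _, Φ.apply_zero, h2]
    show fF _ = _
    simp only [fF, le_refl, if_true]
    norm_num [pI, projIcc_right]
  · show Φ (P ((0, q), u)) = a (q, u)
    simp only [P, Icc.coe_zero, mul_zero, sub_zero, zero_sub]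
    rw [show ps 0 = 0 by norm_num [ps], mul_zero, show pI 0 = 0 from projIcc_left _, Φ.apply_zero,
      show pI (pu 0) = 0 from projIcc_of_le_left _ (by norm_num [pu]), Icc.coe_zero, mul_zero,
      zero_add, show pI ((u : ℝ) / 2) = ⟨(u : ℝ) / 2, by linarith [u.2.1], by linarith [u.2.2]⟩
        from projIcc_of_mem _ _]
    show fF _ = _
    simp only [fF, if_pos (show (u : ℝ) / 2 ≤ 1 / 2 by linarith [u.2.2])]
    rw [show 2 * ((u : ℝ) / 2) = u by ring, hpI']
  · show Φ (P ((1, q), u)) = b (q, u)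
    simp only [P, Icc.coe_one]
    rw [show ps 1 = 0 by norm_num [ps], mul_zero, show pI 0 = 0 from projIcc_left _, Φ.apply_zero,
      show pI (pu 1) = 1 from projIcc_of_right_le _ (by norm_num [pu]), Icc.coe_one, mul_one,
      show pI (1 - (u : ℝ) + (u : ℝ) / 2) = ⟨1 - (u : ℝ) / 2, by linarith [u.2.2], by linarith [u.2.1]⟩
        from by rw [show (1 : ℝ) - u + u / 2 = 1 - u / 2 by ring]; exact projIcc_of_mem _ _]
    show fF _ = _
    by_cases h : 1 - (u : ℝ) / 2 ≤ 1 / 2
    · have hu : u = 1 := Subtype.ext (le_antisymm u.2.2 (by rw [Icc.coe_one]; linarith))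
      subst hu
      norm_num [fF, pI, projIcc_right, hab]
    · simp only [fF, if_neg h]
      rw [show 2 - 2 * (1 - (u : ℝ) / 2) = u by ring, hpI']

/-- An involutive isometry other than the identity which fixes a point has a symmetric closed
geodesic. -/
theorem hasSymGeo (hσiso : IsLocalIsometry g σ) (hinv : ∀ x, σ (σ x) = x) {a₀ : M} (ha₀ : σ a₀ = a₀)
    {q : M} (hq : σ q ≠ q) : HasSymGeo g σ := by
  classical
  letI := gMetricSpace g
  by_contra hno
  obtain ⟨ρ, hρ0, hρu⟩ := exists_unique_radius g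
  have hρ : UniqueRadius g ρ := ⟨hρ0, hρu⟩
  have hσ : IsInvol g σ := ⟨gdist_map_eq hσiso hσiso hinv, hinv⟩
  have hσc : Continuous σ := hσiso.1.continuous
  set r := ρ / 2 with hr
  have hr0 : 0 < r := by positivity
  let pI : ℝ → unitInterval := projIcc (0 : ℝ) 1 zero_le_one
  have hpI : Continuous pI := continuous_projIcc
  -- a family of paths from the fixed set to every point
  suffices key : ∀ t : Finset M, ∃ P : M × unitInterval → M,
      ContinuousOn P ((⋃ p ∈ t, closedBall p (r / 2)) ×ˢ univ) ∧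
      ∀ x ∈ ⋃ p ∈ t, closedBall p (r / 2), σ (P (x, 0)) = P (x, 0) ∧ P (x, 1) = x by
    obtain ⟨t, ht⟩ := isCompact_univ.elim_nhds_subcover (fun p : M => closedBall p (r / 2))
      fun p _ => closedBall_mem_nhds p (half_pos hr0)
    obtain ⟨P, hPc, hP⟩ := key t
    have hall : ∀ x, x ∈ ⋃ p ∈ t, closedBall p (r / 2) := fun x => ht.2 (mem_univ x)
    let H : ℝ × M → M := fun z => P (z.2, pI (1 - z.1))
    have hH : Continuous H := hPc.comp_continuous
      (continuous_snd.prodMk (hpI.comp (continuous_const.sub continuous_fst)))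
      fun z => ⟨hall z.2, mem_univ _⟩
    obtain ⟨x, hx⟩ := surjective_of_homotopy_id (E := E) H hH (fun x => by
      simp only [H, sub_zero, pI, projIcc_right]
      exact (hP x (hall x)).2) q
    simp only [H, sub_self, pI, projIcc_left] at hx
    exact hq (hx ▸ (hP x (hall x)).1)
  intro t
  induction t using Finset.induction with
  | empty => exact ⟨fun z => z.1, by simp, by simp⟩
  | insert p t hp ih =>
    obtain ⟨P, hPc, hP⟩ := ih
    set S : Set M := ⋃ p ∈ t, closedBall p (r / 2) with hS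
    have hScl : IsClosed S := isClosed_biUnion_finset fun p _ => isClosed_closedBall
    set B : Set M := closedBall p (r / 2)
    set B' : Set M := closedBall p r
    have hBB' : B ⊆ B' := closedBall_subset_closedBall (by linarith)
    obtain ⟨c, hc0, hc1, hc⟩ := exists_segment (g := g) a₀ p
    have hcc : ContinuousOn c (Icc 0 1) := IsSegment.continuousOn (L := gdist g a₀ p) hc
    let G : M × unitInterval → M := fun z =>
      if (z.2 : ℝ) ≤ 1 / 2 then c (2 * z.2) else seg g p z.1 (2 * z.2 - 1)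
    have hd : ∀ x ∈ B', gdist g p x < ρ := fun x hx => by
      have h : dist x p ≤ r := hx
      show gdist g p x < ρ
      rw [gdist_comm]
      exact lt_of_le_of_lt h (half_lt_self hρ0)
    have hGc : ContinuousOn G (B' ×ˢ univ) := by
      set T1 : Set (M × unitInterval) := {z | (z.2 : ℝ) ≤ 1 / 2}
      set T2 : Set (M × unitInterval) := {z | 1 / 2 ≤ (z.2 : ℝ)}
      have h1 : ContinuousOn G (T1 ∩ B' ×ˢ univ) := by
        refine (hcc.comp (f := fun z : M × unitInterval => 2 * (z.2 : ℝ))
          (by fun_prop) fun z hz => ?_).congr fun z hz => if_pos hz.1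
        exact ⟨mul_nonneg two_pos.le z.2.2.1, by linarith [show (z.2 : ℝ) ≤ 1 / 2 from hz.1]⟩
      have h2 : ContinuousOn G (T2 ∩ B' ×ˢ univ) := by
        refine ((continuousOn_seg hρ).comp
          (f := fun z : M × unitInterval => ((p, z.1), 2 * (z.2 : ℝ) - 1)) (by fun_prop)
          fun z hz => ⟨hd _ hz.2.1, by linarith [show 1 / 2 ≤ (z.2 : ℝ) from hz.1],
            by linarith [z.2.2.2]⟩).congr fun z hz => ?_
        rcases (show 1 / 2 ≤ (z.2 : ℝ) from hz.1).eq_or_lt with h | h
        · show (if (z.2 : ℝ) ≤ 1 / 2 then c (2 * (z.2 : ℝ)) else seg g p z.1 (2 * (z.2 : ℝ) - 1)) =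
            seg g p z.1 (2 * (z.2 : ℝ) - 1)
          rw [← h]
          norm_num [hc1, seg_zero]
        · exact if_neg (not_le.2 h)
      refine (h1.union_of_isClosed h2 ?_ ?_).mono fun z hz => ?_
      · exact (isClosed_le (by fun_prop) continuous_const).inter (isClosed_closedBall.prod isClosed_univ)
      · exact (isClosed_le continuous_const (by fun_prop)).inter (isClosed_closedBall.prod isClosed_univ)
      · exact (le_total (z.2 : ℝ) (1 / 2)).imp (fun h => ⟨h, hz⟩) fun h => ⟨h, hz⟩
    have hG0 : ∀ x, σ (G (x, 0)) = G (x, 0) := fun x => by simp [G, hc0, ha₀]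
    have hG1 : ∀ x, G (x, 1) = x := fun x => by
      simp only [G, Icc.coe_one, show ¬ (1 : ℝ) ≤ 1 / 2 by norm_num, if_false]
      norm_num [seg_one]
    set O : Set M := S ∩ B' with hO
    haveI : CompactSpace O := isCompact_iff_compactSpace.1 (hScl.inter isClosed_closedBall).isCompact
    let a : C(O × unitInterval, M) := ⟨fun z => P (z.1, z.2), hPc.comp_continuous
      ((continuous_subtype_val.comp continuous_fst).prodMk continuous_snd)
      fun z => ⟨z.1.2.1, mem_univ _⟩⟩
    let b : C(O × unitInterval, M) := ⟨fun z => G (z.1, z.2), hGc.comp_continuous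
      ((continuous_subtype_val.comp continuous_fst).prodMk continuous_snd)
      fun z => ⟨z.1.2.2, mem_univ _⟩⟩
    obtain ⟨F, hF0, hF1, hFa, hFb⟩ := connect hρ hσ hσc hno a b (fun x => (hP _ x.2.1).1)
      (fun x => hG0 _) fun x => ((hP _ x.2.1).2).trans (hG1 _).symm
    let lam : M → unitInterval := fun x => pI (2 - 2 * dist x p / r)
    have hlam : Continuous lam := hpI.comp (by fun_prop)
    have hlamB : ∀ x ∈ B, lam x = 1 := fun x hx => projIcc_of_right_le _ (by
      have h : dist x p ≤ r / 2 := hx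
      have : 2 * dist x p / r ≤ 1 := (div_le_one hr0).2 (by linarith)
      linarith)
    have hlamr : ∀ x, r ≤ dist x p → lam x = 0 := fun x hx => projIcc_of_le_left _ (by
      have : 2 ≤ 2 * dist x p / r := by rw [le_div_iff₀ hr0]; linarith
      linarith)
    let Ft : M × unitInterval → M := fun z =>
      if h : z.1 ∈ O then F ((lam z.1, ⟨z.1, h⟩), z.2) else z.1
    have hFt : ContinuousOn Ft (O ×ˢ univ) := by
      rw [continuousOn_iff_continuous_restrict]
      have h : Continuous fun z : ↥(O ×ˢ (univ : Set unitInterval)) =>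
          F ((lam z.1.1, ⟨z.1.1, z.2.1⟩), z.1.2) := by fun_prop
      exact h.congr fun z => by simp [Set.domRestrict, Ft, z.2.1]
    let N : M × unitInterval → M := fun z =>
      if z.1 ∈ B then G z else if z.1 ∈ O then Ft z else P z
    set U : Set M := S ∩ {x | r ≤ dist x p}
    have hN1 : ContinuousOn N (B ×ˢ univ) :=
      (hGc.mono (prod_mono hBB' subset_rfl)).congr fun z hz => if_pos hz.1
    have hN2 : ContinuousOn N (O ×ˢ univ) := hFt.congr fun z hz => by
      by_cases h : z.1 ∈ B
      · simp only [N, Ft, if_pos h, dif_pos hz.1, hlamB _ h, hFb]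
        rfl
      · simp only [N, if_neg h, if_pos hz.1]
    have hN3 : ContinuousOn N (U ×ˢ univ) :=
      (hPc.mono (prod_mono inter_subset_left subset_rfl)).congr fun z hz => by
        have h : z.1 ∉ B := fun h => by
          have h1 : dist z.1 p ≤ r / 2 := h
          linarith [show r ≤ dist z.1 p from hz.1.2]
        by_cases h' : z.1 ∈ O
        · simp only [N, Ft, if_neg h, if_pos h', dif_pos h', hlamr _ hz.1.2, hFa]
          rfl
        · simp only [N, if_neg h, if_neg h']
    refine ⟨N, ?_, fun x hx => ?_⟩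
    · rw [Finset.set_biUnion_insert]
      refine ((hN1.union_of_isClosed hN2 (isClosed_closedBall.prod isClosed_univ)
        ((hScl.inter isClosed_closedBall).prod isClosed_univ)).union_of_isClosed hN3
        ((isClosed_closedBall.prod isClosed_univ).union
          ((hScl.inter isClosed_closedBall).prod isClosed_univ))
        ((hScl.inter (isClosed_le continuous_const (by fun_prop))).prod isClosed_univ)).mono ?_
      rintro z ⟨hz | hz, -⟩
      · exact Or.inl (Or.inl ⟨hz, mem_univ _⟩)
      · by_cases h : dist z.1 p ≤ r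
        · exact Or.inl (Or.inr ⟨⟨hz, h⟩, mem_univ _⟩)
        · exact Or.inr ⟨⟨hz, (not_le.1 h).le⟩, mem_univ _⟩
    · rw [Finset.set_biUnion_insert] at hx
      by_cases h : x ∈ B
      · simp only [N, if_pos h]
        exact ⟨hG0 x, hG1 x⟩
      have hxS : x ∈ S := hx.resolve_left h
      by_cases h' : x ∈ O
      · simp only [N, Ft, if_neg h, if_pos h', dif_pos h']
        exact ⟨hF0 _ _, (hF1 _ _).trans (hP x hxS).2⟩
      · simp only [N, if_neg h, if_neg h']
        exact hP x hxS

end

end Vale.Agent.P216.Sym
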