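import Vale.Agent.P216.Sym.Flow

/-!
Metrics with an effective isometric action of the two-torus have infinitely many closed geodesics.
-/

open Set Filter Metric Manifold Bundle
open scoped Topology ContDiff

namespace Vale.Agent.P216.Sym

open Vale.Agent.P216.Chord

noncomputable section

/-- A closed subgroup of the plane containing the integer points but none of the other half
integer points has no short nonzero vectors. -/
theorem not_short_vectors (G : AddSubgroup (ℝ × ℝ)) (hcl : IsClosed (G : Set (ℝ × ℝ)))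
    (h10 : ((1 : ℝ), (0 : ℝ)) ∈ G) (h01 : ((0 : ℝ), (1 : ℝ)) ∈ G)
    (hno : ∀ a b : ℤ, ((a : ℝ) / 2, (b : ℝ) / 2) ∈ G → (2 : ℤ) ∣ a ∧ (2 : ℤ) ∣ b) :
    ∃ ε > 0, ∀ v ∈ G, ‖v‖ ≤ ε → v = 0 := by
  by_contra hcon
  push Not at hcon
  choose v hvG hvn hv0 using fun n : ℕ => hcon (1 / ((n : ℝ) + 1)) (by positivity)
  have hvpos : ∀ n, 0 < ‖v n‖ := fun n => norm_pos_iff.2 (hv0 n)
  obtain ⟨u, hu, ψ, hψ, hlim⟩ := (isCompact_sphere (0 : ℝ × ℝ) 1).tendsto_subseq
    (x := fun n => ‖v n‖⁻¹ • v n) fun n => by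
      rw [mem_sphere_zero_iff_norm, norm_smul, norm_inv, norm_norm, inv_mul_cancel₀ (hvpos n).ne']
  have hline : ∀ s : ℝ, s • u ∈ G := by
    intro s
    set r : ℕ → ℝ := fun n => ‖v (ψ n)‖
    have hr : Tendsto r atTop (𝓝 0) :=
      squeeze_zero (fun n => norm_nonneg _) (fun n => hvn (ψ n))
        (tendsto_one_div_add_atTop_nhds_zero_nat.comp hψ.tendsto_atTop)
    have hs : Tendsto (fun n => (⌊s / r n⌋ : ℝ) * r n) atTop (𝓝 s) := by
      refine tendsto_of_tendsto_of_tendsto_of_le_of_le (g := fun n => s - r n) (h := fun _ => s)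
        (by simpa using hr.const_sub s) tendsto_const_nhds (fun n => ?_) fun n => ?_
      · have h := mul_lt_mul_of_pos_right (Int.lt_floor_add_one (s / r n)) (hvpos (ψ n))
        rw [div_mul_cancel₀ s (hvpos (ψ n)).ne', add_mul, one_mul] at h
        show s - r n ≤ _
        linarith
      · have h := mul_le_mul_of_nonneg_right (Int.floor_le (s / r n)) (hvpos (ψ n)).le
        rwa [div_mul_cancel₀ s (hvpos (ψ n)).ne'] at h
    refine hcl.mem_of_tendsto (hs.smul hlim) (Eventually.of_forall fun n => ?_)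
    have h : ((⌊s / r n⌋ : ℝ) * r n) • ‖v (ψ n)‖⁻¹ • v (ψ n) = ⌊s / r n⌋ • v (ψ n) := by
      rw [smul_smul, mul_assoc, mul_inv_cancel₀ (hvpos (ψ n)).ne', mul_one, Int.cast_smul_eq_zsmul]
    simp only [Function.comp_apply, SetLike.mem_coe]
    rw [h]
    exact G.zsmul_mem (hvG (ψ n)) _
  have hu0 : u ≠ 0 := by
    rintro rfl
    simp at hu
  by_cases hu1 : u.1 = 0
  · have hu2 : u.2 ≠ 0 := fun h => hu0 (Prod.ext hu1 h)
    have h := hline (1 / 2 / u.2)
    rw [show (1 / 2 / u.2) • u = (((0 : ℤ) : ℝ) / 2, ((1 : ℤ) : ℝ) / 2) from Prod.ext (by simp [hu1])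
      (by simp only [Prod.smul_snd, smul_eq_mul]; field_simp; simp)] at h
    exact absurd (hno 0 1 h).2 (by norm_num)
  set α := u.2 / u.1 with hαd
  have hα : ∀ s : ℝ, (s, s * α) ∈ G := fun s => by
    have h := hline (s / u.1)
    rwa [show (s / u.1) • u = (s, s * α) from Prod.ext
      (by simp only [Prod.smul_fst, smul_eq_mul]; field_simp)
      (by simp only [Prod.smul_snd, smul_eq_mul, hαd]; field_simp)] at h
  set Gy : AddSubgroup ℝ := G.comap (AddMonoidHom.inr ℝ ℝ)
  have h1y : (1 : ℝ) ∈ Gy := h01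
  have hαy : α ∈ Gy := by
    have h := G.sub_mem (hα 1) h10
    simpa [Gy] using h
  rcases AddSubgroup.dense_or_cyclic Gy with hd | ⟨a, ha⟩
  · have hclosed : IsClosed (Gy : Set ℝ) :=
      hcl.preimage (show Continuous fun y : ℝ => ((0 : ℝ), y) by fun_prop)
    have h : (1 / 2 : ℝ) ∈ Gy := by
      have hu : (Gy : Set ℝ) = univ := hclosed.closure_eq.symm.trans hd.closure_eq
      exact SetLike.mem_coe.1 (hu ▸ mem_univ _)
    exact absurd (hno 0 1 (by simpa [Gy] using h)).2 (by norm_num)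
  rw [ha, AddSubgroup.mem_closure_singleton] at h1y hαy
  obtain ⟨m, hm⟩ := h1y
  obtain ⟨l, hl⟩ := hαy
  rw [zsmul_eq_mul] at hm hl
  have hm0 : (m : ℝ) ≠ 0 := fun h => by rw [h, zero_mul] at hm; exact zero_ne_one hm
  set q : ℚ := (l : ℚ) / m
  have hq : α = (q : ℝ) := by
    rw [← hl, show a = 1 / m by field_simp; linarith]
    push_cast [q]
    ring
  have h := hα ((q.den : ℝ) / 2)
  have e : ((q.den : ℝ) / 2, (q.den : ℝ) / 2 * α) =
      ((((q.den : ℤ)) : ℝ) / 2, ((q.num : ℤ) : ℝ) / 2) := by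
    refine Prod.ext (by simp) ?_
    show (q.den : ℝ) / 2 * α = _
    rw [hq, Rat.cast_def]
    field_simp
  rw [e] at h
  obtain ⟨h1, h2⟩ := hno _ _ h
  have hg : 2 ∣ Nat.gcd q.num.natAbs q.den :=
    Nat.dvd_gcd (Int.natCast_dvd.1 (by exact_mod_cast h2)) (by exact_mod_cast h1)
  rw [q.reduced.gcd_eq_one] at hg
  omega

variable {E : Type*} [NormedAddCommGroup E] [NormedSpace ℝ E] [FiniteDimensional ℝ E]
  {M : Type*} [TopologicalSpace M] [ChartedSpace E M] [IsManifold 𝓘(ℝ, E) ∞ M]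
  [T2Space M] [CompactSpace M] [PreconnectedSpace M]
  {g : ContMDiffRiemannianMetric 𝓘(ℝ, E) ∞ E (fun x : M => TangentSpace 𝓘(ℝ, E) x)}

omit [FiniteDimensional ℝ E] in
/-- A point displaced least by a fixed-point-free isometry of finite order lies on an invariant
closed geodesic. -/
theorem exists_invariant_geo [Nonempty M] (f : ℤ → M → M) (h0 : ∀ x, f 0 x = x)
    (hadd : ∀ k l x, f (k + l) x = f k (f l x))
    (hd : ∀ k x y, gdist g (f k x) (f k y) = gdist g x y) (hc : Continuous (f 1))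
    (hfree : ∀ x, f 1 x ≠ x) {N : ℕ} (hN : 0 < N) (hord : ∀ x, f N x = x) :
    ∃ D τ c, 0 < D ∧ 0 < τ ∧ IsLocalGeo g D c ∧ (∀ t, c (t + τ) = c t) ∧
      f 1 '' range c = range c := by
  obtain ⟨x₀, -, hmin⟩ := isCompact_univ.exists_isMinOn univ_nonempty
    ((continuous_gdist g).comp (continuous_id.prodMk hc)).continuousOn
  set L := gdist g x₀ (f 1 x₀)
  have hL : 0 < L := lt_of_le_of_ne (gdist_nonneg _ _) fun h => hfree x₀ (gdist_eq_zero.1 h.symm).symm
  have hmin' : ∀ x, L ≤ gdist g x (f 1 x) := fun x => hmin (mem_univ x)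
  obtain ⟨p, p0, p1, hp⟩ := exists_segment (g := g) x₀ (f 1 x₀)
  set c : ℝ → M := fun t => f ⌊t⌋ (p (Int.fract t))
  have hstep : ∀ t, c (t + 1) = f 1 (c t) := fun t => by
    simp only [c, Int.floor_add_one, Int.fract_add_one]
    rw [add_comm ⌊t⌋ 1, hadd]
  have hloc : ∀ (j : ℤ) (t : ℝ), t ∈ Icc (j : ℝ) (j + 1) → c t = f j (p (t - j)) := by
    intro j t ht
    rcases ht.2.eq_or_lt with h | h
    · subst h
      simp only [c, Int.floor_add_one, Int.floor_intCast, Int.fract_add_one, Int.fract_intCast,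
        add_sub_cancel_left, p0, p1]
      rw [hadd]
    · simp only [c, Int.fract, Int.floor_eq_iff.2 ⟨ht.1, h⟩]
  have hpiece : ∀ (j : ℤ) (a b : ℝ), a ∈ Icc (j : ℝ) (j + 1) → b ∈ Icc (j : ℝ) (j + 1) → a ≤ b →
      gdist g (c a) (c b) = L * (b - a) := by
    intro j a b ha hb hab
    rw [hloc j a ha, hloc j b hb, hd, hp _ ⟨by linarith [ha.1], by linarith [ha.2]⟩ _
      ⟨by linarith [hb.1], by linarith [hb.2]⟩, abs_sub_comm, abs_of_nonneg (by linarith)]
    ring
  have hup : ∀ a b : ℝ, a ≤ b → b ≤ a + 1 → gdist g (c a) (c b) ≤ L * (b - a) := by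
    intro a b hab hb
    have hj : b ∈ Icc ((⌊b⌋ : ℤ) : ℝ) (⌊b⌋ + 1) :=
      ⟨Int.floor_le b, (Int.lt_floor_add_one b).le⟩
    by_cases h : (⌊b⌋ : ℝ) ≤ a
    · exact (hpiece _ a b ⟨h, hab.trans hj.2⟩ hj hab).le
    push Not at h
    have h1 := hpiece (⌊b⌋ - 1) a ⌊b⌋ (by push_cast; exact ⟨by linarith [hj.1], by linarith⟩)
      (by push_cast; exact ⟨by linarith, by linarith⟩) h.le
    have h2 := hpiece ⌊b⌋ ⌊b⌋ b ⟨le_rfl, by linarith⟩ hj hj.1
    linarith [gdist_triangle (g := g) (c a) (c ⌊b⌋) (c b)]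
  refine ⟨L, N, c, hL, Nat.cast_pos.2 hN, fun a b hab hb => le_antisymm (hup a b hab hb) ?_,
    fun t => ?_, ?_⟩
  · have h1 := hmin' (c a)
    rw [← hstep] at h1
    have h2 := hup b (a + 1) hb (by linarith)
    linarith [gdist_triangle (g := g) (c a) (c b) (c (a + 1))]
  · simp only [c, Int.floor_add_natCast, Int.fract_add_natCast]
    rw [add_comm ⌊t⌋ (N : ℤ), hadd, hord]
  · ext x
    constructor
    · rintro ⟨_, ⟨t, rfl⟩, rfl⟩
      exact ⟨t + 1, hstep t⟩
    · rintro ⟨t, rfl⟩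
      exact ⟨c (t - 1), mem_range_self _, by rw [← hstep, sub_add_cancel]⟩

/-- An effective isometric action of the two-torus gives infinitely many closed geodesics. -/
theorem infinite_of_torus (A : ℝ × ℝ → M → M) (hzero : ∀ x, A 0 x = x)
    (hadd : ∀ v w x, A (v + w) x = A v (A w x)) (hiso : ∀ v, IsLocalIsometry g (A v))
    (hcont : ∀ x, Continuous fun v => A v x) (h10 : ∀ x, A (1, 0) x = x)
    (h01 : ∀ x, A (0, 1) x = x)
    (heff : ∀ v, (∀ x, A v x = x) → ∃ m n : ℤ, v = ((m : ℝ), (n : ℝ))) :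
    (closedGeodesicImages g).Infinite := by
  have hneg : ∀ v x, A (-v) (A v x) = x := fun v x => by rw [← hadd, neg_add_cancel, hzero]
  have hAd : ∀ v x y, gdist g (A v x) (A v y) = gdist g x y := fun v =>
    gdist_map_eq (hiso v) (hiso (-v)) (hneg v)
  let Stab : M → AddSubgroup (ℝ × ℝ) := fun p =>
    { carrier := {v | A v p = p}
      zero_mem' := hzero p
      add_mem' := fun {v w} (hv : A v p = p) (hw : A w p = p) => by
        show A (v + w) p = p
        rw [hadd, hw, hv]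
      neg_mem' := fun {v} (hv : A v p = p) => by
        show A (-v) p = p
        conv_lhs => rw [← hv]
        exact hneg v p }
  have hlat : ∀ (p : M) (m n : ℤ), ((m : ℝ), (n : ℝ)) ∈ Stab p := fun p m n => by
    have h := (Stab p).add_mem ((Stab p).zsmul_mem (show ((1 : ℝ), (0 : ℝ)) ∈ Stab p from h10 p) m)
      ((Stab p).zsmul_mem (show ((0 : ℝ), (1 : ℝ)) ∈ Stab p from h01 p) n)
    simpa using h
  by_cases hhalf : ∃ a b : ℤ, (∃ p, ((a : ℝ) / 2, (b : ℝ) / 2) ∈ Stab p) ∧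
      ¬((2 : ℤ) ∣ a ∧ (2 : ℤ) ∣ b)
  · obtain ⟨a, b, ⟨p, hp⟩, hab⟩ := hhalf
    set w : ℝ × ℝ := ((a : ℝ) / 2, (b : ℝ) / 2)
    have hne : ∃ q, A w q ≠ q := by
      by_contra hall
      push Not at hall
      obtain ⟨m, n, hmn⟩ := heff w hall
      simp only [w, Prod.mk.injEq] at hmn
      refine hab ⟨⟨m, ?_⟩, ⟨n, ?_⟩⟩
      · have : (a : ℝ) = 2 * m := by linarith [hmn.1]
        exact_mod_cast this
      · have : (b : ℝ) = 2 * n := by linarith [hmn.2]
        exact_mod_cast this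
    obtain ⟨q, hq⟩ := hne
    refine infinite_of_involution (fun t => A ((2 * t) • w)) (fun x => by simp [hzero])
      (fun s t x => by rw [mul_add, add_smul, hadd]) (fun t => hiso _)
      (fun x => (hcont x).comp (by fun_prop)) (hiso w) (fun x => ?_) (fun t x => ?_)
      (fun x hx => ?_) hp hq
    · rw [← hadd, show w + w = ((a : ℝ), (b : ℝ)) by simp [w]]
      exact hlat x a b
    · rw [← hadd, ← hadd, add_comm]
    · have := hx (1 / 2)
      norm_num at this
      exact this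
  push Not at hhalf
  have hno : ∀ (p : M) (a b : ℤ), ((a : ℝ) / 2, (b : ℝ) / 2) ∈ Stab p → (2 : ℤ) ∣ a ∧ (2 : ℤ) ∣ b :=
    fun p a b h => hhalf a b ⟨p, h⟩
  obtain ⟨x₁⟩ : Nonempty M := by
    by_contra hM
    rw [not_nonempty_iff] at hM
    obtain ⟨m, n, hmn⟩ := heff ((1 / 2 : ℝ), (0 : ℝ)) fun x => hM.elim x
    have h1 : (1 : ℝ) = 2 * m := by
      have := (Prod.mk.injEq _ _ _ _).mp hmn
      linarith [this.1]
    have h2 : (1 : ℤ) = 2 * m := by exact_mod_cast h1
    omega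
  intro hfin
  -- a geodesic invariant under all translations in the direction `(1, k)`
  have hdir : ∀ k : ℤ, ∃ S ∈ closedGeodesicImages g, (∃ D τ c, 0 < D ∧ 0 < τ ∧
      IsLocalGeo g D c ∧ (∀ t, c (t + τ) = c t) ∧ range c = S) ∧
      ∀ t : ℝ, ∀ x ∈ S, A (t • ((1 : ℝ), (k : ℝ))) x ∈ S := by
    intro k
    set w : ℝ × ℝ := ((1 : ℝ), (k : ℝ))
    have hn : ∀ n : ℕ, ∃ S ∈ closedGeodesicImages g, (∃ D τ c, 0 < D ∧ 0 < τ ∧
        IsLocalGeo g D c ∧ (∀ t, c (t + τ) = c t) ∧ range c = S) ∧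
        A ((1 / (2 : ℝ) ^ (n + 1)) • w) '' S = S := by
      intro n
      set v := (1 / (2 : ℝ) ^ (n + 1)) • w with hv
      haveI : Nonempty M := ⟨x₁⟩
      have hfree : ∀ x, A ((1 : ℤ) • v) x ≠ x := by
        intro x hx
        rw [one_zsmul] at hx
        have h := (Stab x).nsmul_mem (show v ∈ Stab x from hx) (2 ^ n)
        rw [show (2 ^ n : ℕ) • v = ((((1 : ℤ)) : ℝ) / 2, (k : ℝ) / 2) by
          rw [← Nat.cast_smul_eq_nsmul ℝ, hv, smul_smul]
          refine Prod.ext ?_ ?_ <;> simp [w, pow_succ] <;> field_simp] at h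
        exact absurd (hno x 1 k h).1 (by norm_num)
      have hord : ∀ x, A (((2 ^ (n + 1) : ℕ) : ℤ) • v) x = x := fun x => by
        rw [show ((2 ^ (n + 1) : ℕ) : ℤ) • v = (((1 : ℤ) : ℝ), (k : ℝ)) by
          rw [natCast_zsmul, ← Nat.cast_smul_eq_nsmul ℝ, hv, smul_smul]
          refine Prod.ext ?_ ?_ <;> simp [w]]
        exact hlat x 1 k
      obtain ⟨D, τ, c, hD, hτ, hc, hper, hinv⟩ := exists_invariant_geo (g := g)
        (fun j : ℤ => A (j • v)) (fun x => by simp [hzero])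
        (fun j l x => by rw [add_zsmul, hadd]) (fun j => hAd _) (hiso _).1.continuous
        hfree (Nat.two_pow_pos (n + 1)) hord
      refine ⟨range c, ⟨c, hc.isClosedGeodesic hD hτ hper, rfl⟩, ⟨D, τ, c, hD, hτ, hc, hper, rfl⟩, ?_⟩
      simpa using hinv
    choose S hS hSgeo hSinv using hn
    haveI := hfin.to_subtype
    obtain ⟨⟨T, hT⟩, hinf⟩ := Finite.exists_infinite_fiber
      (fun n : ℕ => (⟨S n, hS n⟩ : closedGeodesicImages g))
    have hinf' : {n : ℕ | S n = T}.Infinite :=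
      (Set.infinite_coe_iff.1 hinf).mono fun n hn => by
        simpa using hn
    obtain ⟨n₀, hn₀⟩ := hinf'.nonempty
    obtain ⟨D, τ, c, hD, hτ, hc, hper, hcT⟩ := hn₀ ▸ hSgeo n₀
    refine ⟨T, hT, ⟨D, τ, c, hD, hτ, hc, hper, hcT⟩, fun t x hx => ?_⟩
    have hTcl : IsClosed T := by
      have he : T = c '' Icc 0 τ := by
        rw [← hcT]
        ext y
        exact ⟨fun hy => exists_mem_Icc hτ hper hy, fun ⟨v, _, h⟩ => h ▸ mem_range_self v⟩
      exact he ▸ (isCompact_Icc.image hc.continuous).isClosed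
    let H : AddSubgroup ℝ :=
      { carrier := {t | A (t • w) '' T = T}
        zero_mem' := by simp [hzero]
        add_mem' := fun {s t} hs ht => by
          simp only [mem_setOf_eq] at hs ht ⊢
          calc A ((s + t) • w) '' T = A (s • w) '' (A (t • w) '' T) := by
                rw [image_image]; simp only [add_smul, hadd]
            _ = T := by rw [ht, hs]
        neg_mem' := fun {t} ht => by
          simp only [mem_setOf_eq] at ht ⊢
          calc A ((-t) • w) '' T = A ((-t) • w) '' (A (t • w) '' T) := by rw [ht]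
            _ = T := by rw [image_image]; simp only [neg_smul, hneg, image_id'] }
    have hdy : ∀ m : ℕ, 1 / (2 : ℝ) ^ (m + 1) ∈ H := by
      intro m
      obtain ⟨n, hn, hmn⟩ := hinf'.exists_gt m
      obtain ⟨i, rfl⟩ := Nat.exists_eq_add_of_le hmn.le
      have h : 1 / (2 : ℝ) ^ (m + i + 1) ∈ H := by
        show A _ '' T = T
        rw [← show S (m + i) = T from hn]
        exact hSinv _
      have := H.nsmul_mem h (2 ^ i)
      rwa [nsmul_eq_mul, show ((2 ^ i : ℕ) : ℝ) * (1 / 2 ^ (m + i + 1)) = 1 / 2 ^ (m + 1) by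
        push_cast; rw [show m + i + 1 = i + (m + 1) by ring, pow_add]; field_simp] at this
    have hlim : Tendsto (fun m : ℕ => (⌊t * 2 ^ (m + 1)⌋ : ℝ) * (1 / 2 ^ (m + 1))) atTop (𝓝 t) := by
      have h0 : Tendsto (fun m : ℕ => 1 / (2 : ℝ) ^ (m + 1)) atTop (𝓝 0) :=
        tendsto_const_nhds.div_atTop ((tendsto_pow_atTop_atTop_of_one_lt one_lt_two).comp
          (tendsto_add_atTop_nat 1))
      refine tendsto_of_tendsto_of_tendsto_of_le_of_le
        (g := fun m : ℕ => t - 1 / 2 ^ (m + 1)) (h := fun _ => t) (by simpa using h0.const_sub t)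
        tendsto_const_nhds (fun m => ?_) fun m => ?_
      · have h := mul_lt_mul_of_pos_right (Int.lt_floor_add_one (t * 2 ^ (m + 1)))
          (show (0 : ℝ) < 1 / 2 ^ (m + 1) by positivity)
        rw [add_mul, one_mul, show t * 2 ^ (m + 1) * (1 / 2 ^ (m + 1)) = t by field_simp] at h
        show t - 1 / 2 ^ (m + 1) ≤ _
        linarith
      · have h := mul_le_mul_of_nonneg_right (Int.floor_le (t * 2 ^ (m + 1)))
          (show (0 : ℝ) ≤ 1 / 2 ^ (m + 1) by positivity)
        rwa [show t * 2 ^ (m + 1) * (1 / 2 ^ (m + 1)) = t by field_simp] at h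
    refine hTcl.mem_of_tendsto (((hcont x).tendsto _).comp (hlim.smul_const w))
      (Eventually.of_forall fun m => ?_)
    have h := H.zsmul_mem (hdy m) ⌊t * 2 ^ (m + 1)⌋
    rw [zsmul_eq_mul] at h
    exact (show A _ '' T = T from h).subset (mem_image_of_mem _ hx)
  choose T hT hTgeo hTinv using hdir
  haveI := hfin.to_subtype
  obtain ⟨k, k', hkk, he⟩ :=
    Finite.exists_ne_map_eq_of_infinite (fun k : ℤ => (⟨T k, hT k⟩ : closedGeodesicImages g))
  have he' : T k = T k' := congrArg Subtype.val he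
  obtain ⟨D, τ, c, hD, hτ, hc, hper, hcT⟩ := hTgeo k
  have hall : ∀ v : ℝ × ℝ, ∀ x ∈ T k, A v x ∈ T k := by
    intro v x hx
    have hkr : (k' : ℝ) - k ≠ 0 := by
      rw [sub_ne_zero]; exact_mod_cast hkk.symm
    set r := (v.2 - (k : ℝ) * v.1) / ((k' : ℝ) - k) with hr
    have hsplit : v = (v.1 - r) • ((1 : ℝ), (k : ℝ)) + r • ((1 : ℝ), (k' : ℝ)) := by
      refine Prod.ext (by simp) ?_
      simp only [Prod.snd_add, Prod.smul_snd, smul_eq_mul, hr]
      field_simp
      ring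
    rw [hsplit, hadd]
    exact hTinv k _ _ (he' ▸ hTinv k' r x (he' ▸ hx))
  set p := c 0
  have hpT : p ∈ T k := hcT ▸ mem_range_self 0
  obtain ⟨η, hη, hsph⟩ := hc.exists_finite_sphere hD hτ hper p
  obtain ⟨ε, hε, hshort⟩ := not_short_vectors (Stab p)
    (isClosed_eq (hcont p) continuous_const) (h10 p) (h01 p) (hno p)
  set f : ℝ × ℝ → ℝ := fun v => gdist g p (A v p)
  have hf : Continuous f := (continuous_gdist g).comp (continuous_const.prodMk (hcont p))
  have hf0 : f 0 = 0 := by simp [f, hzero, gdist_self]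
  obtain ⟨e, he0, hee⟩ := Metric.eventually_nhds_iff.1
    ((hf.continuousAt (x := 0)).eventually_lt_const (show f 0 < η by rw [hf0]; exact hη))
  set b := min (ε / 4) (e / 4)
  have hb : 0 < b := by positivity
  set w : ℝ × ℝ := (b, 0)
  have hwn : ‖w‖ = b := by simp [w, Prod.norm_def, abs_of_pos hb, hb.le]
  have hb4 : b ≤ ε / 4 := min_le_left _ _
  have hfw : 0 < f w := lt_of_le_of_ne (gdist_nonneg _ _) fun h => by
    have h0 := hshort w (show A w p = p from ((gdist_eq_zero).1 h.symm).symm) (by rw [hwn]; linarith)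
    rw [h0, norm_zero] at hwn
    linarith
  set δ := f w / 2 with hδ
  have hδη : δ < η := by
    have h : f w < η := hee (show dist w 0 < e by
      rw [dist_zero_right, hwn]; linarith [min_le_right (ε / 4) (e / 4)])
    linarith
  have hcross : ∀ l : Icc (0 : ℝ) 1, ∃ s ∈ Ioo (0 : ℝ) 1, f (s * b, l * (s * (1 - s) * b)) = δ := by
    intro l
    have hF : Continuous fun s : ℝ => f (s * b, l * (s * (1 - s) * b)) := hf.comp (by fun_prop)
    have h0' : f (0 * b, (l : ℝ) * (0 * (1 - 0) * b)) = 0 := by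
      simpa [Prod.mk_zero_zero] using hf0
    have h1' : f (1 * b, (l : ℝ) * (1 * (1 - 1) * b)) = f w := by simp [w]
    obtain ⟨s, hs, hse⟩ := intermediate_value_Ioo zero_le_one hF.continuousOn
      (show δ ∈ Ioo (f (0 * b, (l : ℝ) * (0 * (1 - 0) * b))) (f (1 * b, (l : ℝ) * (1 * (1 - 1) * b)))
        from ⟨by rw [h0']; linarith, by rw [h1']; linarith⟩)
    exact ⟨s, hs, hse⟩
  choose s hs hse using hcross
  haveI : Finite ↥{x ∈ range c | gdist g p x = δ} := (hsph δ hδη).to_subtype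
  haveI : Infinite (Icc (0 : ℝ) 1) := (Icc_infinite zero_lt_one).to_subtype
  let P : Icc (0 : ℝ) 1 → ℝ × ℝ := fun l => (s l * b, l * (s l * (1 - s l) * b))
  obtain ⟨l, l', hne, hll⟩ := Finite.exists_ne_map_eq_of_infinite fun l : Icc (0 : ℝ) 1 =>
    (⟨A (P l) p, by rw [hcT]; exact hall _ p hpT, hse l⟩ : ↥{x ∈ range c | gdist g p x = δ})
  have hmem : P l - P l' ∈ Stab p := by
    show A (P l - P l') p = p
    rw [sub_eq_neg_add, hadd, show A (P l) p = A (P l') p from congrArg Subtype.val hll, hneg]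
  have hPn : ∀ l, ‖P l‖ ≤ b := by
    intro l
    obtain ⟨h1, h2⟩ := hs l
    simp only [P, Prod.norm_def, Real.norm_eq_abs]
    refine max_le ?_ ?_
    · rw [abs_of_pos (mul_pos h1 hb)]; nlinarith
    · rw [abs_of_nonneg (mul_nonneg l.2.1 (mul_nonneg (mul_nonneg h1.le (by linarith)) hb.le))]
      have h3 : s l * (1 - s l) ≤ 1 := by nlinarith
      have h4 : s l * (1 - s l) * b ≤ b := mul_le_of_le_one_left hb.le h3
      exact le_trans (mul_le_of_le_one_left
        (mul_nonneg (mul_nonneg h1.le (by linarith)) hb.le) l.2.2) h4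
  have hz : P l = P l' := sub_eq_zero.1 (hshort _ hmem
    ((norm_sub_le _ _).trans (by linarith [hPn l, hPn l'])))
  simp only [P, Prod.mk.injEq] at hz
  have hss : s l = s l' := mul_right_cancel₀ hb.ne' hz.1
  rw [← hss] at hz
  refine hne (Subtype.ext (mul_right_cancel₀ ?_ hz.2))
  exact (mul_pos (mul_pos (hs l).1 (by linarith [(hs l).2])) hb).ne'

end

end Vale.Agent.P216.Sym
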