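import Vale.Agent.P216.Main
import Vale.Agent.P216.Sym.Torus

/-!
A circle of isometries and a commuting isometric involution outside it give infinitely many closed
geodesics.
-/

open Set Filter Metric Manifold Bundle
open scoped Topology ContDiff

namespace Vale.Agent.P216.Sym

open Vale.Agent.P216.Chord

noncomputable section

variable {E : Type*} [NormedAddCommGroup E] [NormedSpace ℝ E] [FiniteDimensional ℝ E]
  {M : Type*} [TopologicalSpace M] [ChartedSpace E M] [IsManifold 𝓘(ℝ, E) ∞ M]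
  [T2Space M] [CompactSpace M] [PreconnectedSpace M]
  {g : ContMDiffRiemannianMetric 𝓘(ℝ, E) ∞ E (fun x : M => TangentSpace 𝓘(ℝ, E) x)}
  {D τ : ℝ} {c : ℝ → M}

omit [FiniteDimensional ℝ E] in
/-- A nonconstant path inside a closed local geodesic meets it at a rational time. -/
theorem IsLocalGeo.exists_rat_mem (h : IsLocalGeo g D c) (hD : 0 < D) (hτ : 0 < τ)
    (hper : ∀ t, c (t + τ) = c t) {γ : ℝ → M} (hγ : Continuous γ) (hm : ∀ t, γ t ∈ range c)
    (hnc : ∀ a b : ℝ, a < b → ∃ t ∈ Icc a b, γ t ≠ γ a) : ∃ (r : ℚ) (t : ℝ), γ t = c r := by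
  obtain ⟨K, hK⟩ := exists_nat_gt (2 * τ)
  let W : Fin (K + 1) → Set ℝ := fun j => γ ⁻¹' (c '' Icc ((j : ℝ) / 2) ((j : ℝ) / 2 + 1 / 2))
  have hW : ∀ j, IsClosed (W j) := fun j =>
    (isCompact_Icc.image h.continuous).isClosed.preimage hγ
  have hU : ⋃ j, W j = univ := eq_univ_of_forall fun t => by
    obtain ⟨v, hv, hvt⟩ := exists_mem_Icc hτ hper (hm t)
    refine mem_iUnion.2 ⟨⟨⌊2 * v⌋₊, ?_⟩, v, ⟨?_, ?_⟩, hvt⟩
    · exact Nat.lt_succ_of_le (Nat.floor_le_of_le (by linarith [hv.1, hv.2, hK]))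
    · show ((⌊2 * v⌋₊ : ℕ) : ℝ) / 2 ≤ v
      linarith [Nat.floor_le (show 0 ≤ 2 * v by linarith [hv.1])]
    · show v ≤ ((⌊2 * v⌋₊ : ℕ) : ℝ) / 2 + 1 / 2
      linarith [Nat.lt_floor_add_one (2 * v)]
  obtain ⟨j, t₀, ht₀⟩ := nonempty_interior_of_iUnion_of_closed hW hU
  obtain ⟨ε, hε, hball⟩ := nhds_basis_closedBall.mem_iff.1 (isOpen_interior.mem_nhds ht₀)
  rw [Real.closedBall_eq_Icc] at hball
  obtain ⟨t₁, ht₁, hne⟩ := hnc (t₀ - ε) (t₀ + ε) (by linarith)
  set a := (j : ℝ) / 2
  let v : ℝ → ℝ := fun t => a + gdist g (c a) (γ t) / D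
  have hv : ∀ t ∈ Icc (t₀ - ε) (t₀ + ε), c (v t) = γ t := by
    intro t ht
    obtain ⟨w, hw, hwe⟩ := interior_subset (hball ht)
    have : v t = w := by
      show a + gdist g (c a) (γ t) / D = w
      rw [← hwe, h a w hw.1 (by show w ≤ (j : ℝ) / 2 + 1; linarith [hw.2])]
      field_simp
      ring
    rw [this, hwe]
  have hvc : Continuous v := continuous_const.add
    (((continuous_gdist g).comp (continuous_const.prodMk hγ)).div_const D)
  have hne' : v (t₀ - ε) ≠ v t₁ := fun he => hne (by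
    rw [← hv t₁ ht₁, ← hv _ ⟨le_rfl, by linarith⟩, he])
  obtain ⟨r, hr⟩ : ∃ r : ℚ, (r : ℝ) ∈ uIcc (v (t₀ - ε)) (v t₁) := by
    rcases hne'.lt_or_gt with hlt | hlt <;> obtain ⟨r, h1, h2⟩ := exists_rat_btwn hlt
    · exact ⟨r, mem_uIcc.2 (Or.inl ⟨h1.le, h2.le⟩)⟩
    · exact ⟨r, mem_uIcc.2 (Or.inr ⟨h1.le, h2.le⟩)⟩
  obtain ⟨t, ht, hte⟩ := intermediate_value_uIcc hvc.continuousOn hr
  rw [uIcc_of_le ht₁.1] at ht
  exact ⟨r, t, by rw [← hte, hv t ⟨ht.1, ht.2.trans ht₁.2⟩]⟩

/-- A nontrivial periodic flow of isometries and a commuting isometric involution outside it give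
infinitely many closed geodesics. -/
theorem infinite_of_circle_involution
    (φ : ℝ → M → M) (hzero : ∀ x, φ 0 x = x) (hadd : ∀ s t x, φ (s + t) x = φ s (φ t x))
    (hiso : ∀ t, IsLocalIsometry g (φ t)) (hcont : ∀ x, Continuous fun t => φ t x)
    {τ : ℝ} (hτ : 0 < τ) (hper : ∀ x, φ τ x = x) (hmove : ∃ t x, φ t x ≠ x)
    {ψ : M → M} (hψ : IsLocalIsometry g ψ) (hinv : ∀ x, ψ (ψ x) = x)
    (hcomm : ∀ t x, φ t (ψ x) = ψ (φ t x)) (hout : ∀ t, ∃ x, ψ x ≠ φ t x) :
    (closedGeodesicImages g).Infinite := by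
  by_cases hrest : ∃ a, ∀ t, φ t a = a
  · obtain ⟨a, ha⟩ := hrest
    exact infinite_of_circle φ hzero hadd hiso hcont hτ hper ha hmove
  push Not at hrest
  have hneg : ∀ t x, φ (-t) (φ t x) = x := fun t x => by rw [← hadd, neg_add_cancel, hzero]
  have hsq : ∀ t x, ψ (φ t (ψ (φ t x))) = φ (2 * t) x := fun t x => by
    rw [hcomm, hinv, ← hadd, two_mul]
  let G : M → AddSubgroup ℝ := fun x =>
    { carrier := {s | φ s x = x}
      zero_mem' := hzero x
      add_mem' := fun {s s'} (hs : φ s x = x) (hs' : φ s' x = x) => by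
        show φ (s + s') x = x
        rw [hadd, hs', hs]
      neg_mem' := fun {s} (hs : φ s x = x) => by
        show φ (-s) x = x
        conv_lhs => rw [← hs]
        exact hneg s x }
  have hGcl : ∀ x, IsClosed (G x : Set ℝ) := fun x => isClosed_eq (hcont x) continuous_const
  have hcyc : ∀ x, ∃ a, G x = AddSubgroup.closure {a} := fun x => by
    rcases AddSubgroup.dense_or_cyclic (G x) with h | h
    · obtain ⟨t, ht⟩ := hrest x
      have hu : (G x : Set ℝ) = univ := (hGcl x).closure_eq.symm.trans h.closure_eq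
      exact absurd (SetLike.mem_coe.1 (hu ▸ mem_univ t)) ht
    · exact h
  by_cases hfix : ∃ x t, ψ (φ t x) = x
  · obtain ⟨x, t, hxt⟩ := hfix
    obtain ⟨a, ha⟩ := hcyc x
    set H : AddSubgroup ℝ := ⨅ y, G y
    have hHm : ∀ {s}, s ∈ H ↔ ∀ y, φ s y = y := fun {s} => by
      simp only [H, AddSubgroup.mem_iInf]
      rfl
    have hHcl : IsClosed (H : Set ℝ) := by
      simp only [H, AddSubgroup.coe_iInf]
      exact isClosed_iInter hGcl
    obtain ⟨b, hb⟩ : ∃ b, H = AddSubgroup.closure {b} := by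
      rcases AddSubgroup.dense_or_cyclic H with h | h
      · obtain ⟨t, y, hy⟩ := hmove
        have hu : (H : Set ℝ) = univ := hHcl.closure_eq.symm.trans h.closure_eq
        exact absurd ((hHm.1 (SetLike.mem_coe.1 (hu ▸ mem_univ t))) y) hy
      · exact h
    have hbH : b ∈ H := hb ▸ AddSubgroup.subset_closure rfl
    have hb0 : b ≠ 0 := by
      intro h0
      have : τ ∈ H := hHm.2 hper
      rw [hb, h0, AddSubgroup.mem_closure_singleton] at this
      obtain ⟨k, hk⟩ := this
      simp at hk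
      linarith
    have hbG : b ∈ G x := AddSubgroup.mem_iInf.1 hbH x
    rw [ha, AddSubgroup.mem_closure_singleton] at hbG
    obtain ⟨m, hm⟩ := hbG
    have haG : a ∈ G x := ha ▸ AddSubgroup.subset_closure rfl
    rcases Int.even_or_odd m with ⟨n, rfl⟩ | ⟨n, rfl⟩
    · have hn : n ≠ 0 := fun h => hb0 (by rw [← hm, h]; simp)
      have hnot : ∃ y, φ ((n : ℝ) * a) y ≠ y := by
        by_contra hall
        push Not at hall
        have h := hHm.2 hall
        rw [hb, AddSubgroup.mem_closure_singleton] at h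
        obtain ⟨k, hk⟩ := h
        rw [zsmul_eq_mul, ← hm, zsmul_eq_mul] at hk
        push_cast at hk
        have ha0 : a ≠ 0 := fun h => hb0 (by rw [← hm, h, smul_zero])
        have h2 : (k : ℝ) * (2 * n) = n := mul_right_cancel₀ ha0 (by linarith)
        have h3 : k * (2 * n) = n := by exact_mod_cast h2
        have h4 : (k * 2 - 1) * n = 0 := by rw [sub_mul, one_mul, mul_assoc, h3, sub_self]
        rcases mul_eq_zero.1 h4 with h5 | h5
        · omega
        · exact hn h5
      obtain ⟨y, hy⟩ := hnot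
      refine infinite_of_involution φ hzero hadd hiso hcont (hiso _) (fun z => ?_) (fun s z => ?_)
        (fun z hz => hz _) (a₀ := x) ?_ hy
      · rw [← hadd, ← add_mul, show ((n : ℝ) + n) * a = b by rw [← hm, zsmul_eq_mul]; push_cast; ring]
        exact hHm.1 hbH z
      · rw [← hadd, ← hadd, add_comm]
      · have := (G x).zsmul_mem haG n
        rwa [zsmul_eq_mul] at this
    · have h2t : 2 * t ∈ G x := by
        show φ (2 * t) x = x
        rw [← hsq, hxt, hxt]
      rw [ha, AddSubgroup.mem_closure_singleton] at h2t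
      obtain ⟨i, hi⟩ := h2t
      set s := t + (i * n : ℤ) • a with hs
      have hσx : ψ (φ s x) = x := by
        rw [hs, hadd, show φ ((i * n : ℤ) • a) x = x from (G x).zsmul_mem haG _, hxt]
      obtain ⟨y, hy⟩ := hout (-s)
      refine infinite_of_involution φ hzero hadd hiso hcont (σ := fun z => ψ (φ s z))
        (IsLocalIsometry.comp hψ (hiso s)) (fun z => ?_) (fun r z => ?_)
        (fun z hz => ((hrest z).choose_spec (hz _)).elim) (a₀ := x) hσx (q₀ := φ (-s) y) ?_
      · rw [hsq]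
        have e : 2 * s = i • b := by
          rw [hs, mul_add, ← hi, ← hm]
          simp only [zsmul_eq_mul]
          push_cast
          ring
        rw [e]
        exact hHm.1 (H.zsmul_mem hbH i) z
      · rw [hcomm, ← hadd, ← hadd, add_comm]
      · rwa [← hadd, add_neg_cancel, hzero]
  push Not at hfix
  obtain ⟨t₀, x₀, hx₀⟩ := hmove
  haveI : Nonempty M := ⟨x₀⟩
  intro hfin
  set w : ℕ → ℝ := fun n => τ / 2 ^ (n + 1)
  have hn : ∀ n, ∃ S ∈ closedGeodesicImages g, (∃ D τ c, 0 < D ∧ 0 < τ ∧ IsLocalGeo g D c ∧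
      (∀ t, c (t + τ) = c t) ∧ range c = S) ∧ ∀ x ∈ S, ψ (φ (w n) x) ∈ S := by
    intro n
    let f : ℤ → M → M := fun k x => if Even k then φ (k * w n) x else ψ (φ (k * w n) x)
    have hf1 : ∀ x, f 1 x = ψ (φ (w n) x) := fun x => by simp [f]
    have hord : ∀ x, f ((2 ^ (n + 1) : ℕ) : ℤ) x = x := fun x => by
      have he : Even (((2 ^ (n + 1) : ℕ) : ℤ)) := by exact_mod_cast (even_two.pow_of_ne_zero n.succ_ne_zero)
      simp only [f, if_pos he, w]
      push_cast
      rw [mul_div_cancel₀ τ (by positivity)]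
      exact hper x
    have hf : ∀ k l x, f (k + l) x = f k (f l x) := fun k l x => by
      simp only [f, Int.even_add, Int.cast_add, add_mul, hadd]
      by_cases hk : Even k <;> by_cases hl : Even l <;> simp [hk, hl, hcomm, hinv]
    have hd : ∀ k x y, gdist g (f k x) (f k y) = gdist g x y := fun k x y => by
      have h1 := gdist_map_eq (hiso (k * w n)) (hiso (-(k * w n))) (hneg _) x y
      have h2 := gdist_map_eq (g := g) hψ hψ hinv (φ (k * w n) x) (φ (k * w n) y)
      by_cases hk : Even k <;> simp [f, hk, h1, h2]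
    obtain ⟨D, τ', c, hD, hτ', hc, hp, hi⟩ := exists_invariant_geo (g := g) f
      (fun x => by simp [f, hzero]) hf hd
      (by rw [funext hf1]; exact hψ.1.continuous.comp (hiso _).1.continuous)
      (fun x => by rw [hf1]; exact hfix x (w n)) (Nat.two_pow_pos (n + 1)) hord
    refine ⟨range c, ⟨c, hc.isClosedGeodesic hD hτ' hp, rfl⟩, ⟨D, τ', c, hD, hτ', hc, hp, rfl⟩, ?_⟩
    intro x hx
    rw [← hf1]
    exact hi.subset (mem_image_of_mem _ hx)
  choose S hS hgeo hSinv using hn
  haveI := hfin.to_subtype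
  obtain ⟨⟨T, hT⟩, hinf⟩ := Finite.exists_infinite_fiber
    (fun n : ℕ => (⟨S n, hS n⟩ : closedGeodesicImages g))
  have hinf' : {n : ℕ | S n = T}.Infinite :=
    (Set.infinite_coe_iff.1 hinf).mono fun n hn => by simpa using hn
  obtain ⟨n₀, hn₀⟩ := hinf'.nonempty
  obtain ⟨D, τ', c, hD, hτ', hc, hp, hcT⟩ := hn₀ ▸ hgeo n₀
  have hTcl : IsClosed T := by
    have he : T = c '' Icc 0 τ' := by
      rw [← hcT]
      ext y
      exact ⟨fun hy => exists_mem_Icc hτ' hp hy, fun ⟨v, _, h⟩ => h ▸ mem_range_self v⟩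
    exact he ▸ (isCompact_Icc.image hc.continuous).isClosed
  let K : AddSubmonoid ℝ :=
    { carrier := {t | ∀ x ∈ T, φ t x ∈ T}
      zero_mem' := fun x hx => by rwa [hzero]
      add_mem' := fun {s t} hs ht x hx => by rw [hadd]; exact hs _ (ht _ hx) }
  have hsum : ∀ n n', S n = T → S n' = T → w n + w n' ∈ K := fun n n' h h' x hx => by
    have h1 := h ▸ hSinv n
    have h2 := h' ▸ hSinv n'
    have := h1 _ (h2 x hx)
    rwa [hcomm, hinv, ← hadd] at this
  have hall : ∀ t, ∀ x ∈ T, φ t x ∈ T := by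
    have hcl : IsClosed (K : Set ℝ) := by
      have : (K : Set ℝ) = ⋂ x ∈ T, (fun t => φ t x) ⁻¹' T := by
        ext t
        show (∀ x ∈ T, φ t x ∈ T) ↔ _
        simp
      rw [this]
      exact isClosed_biInter fun x _ => hTcl.preimage (hcont x)
    have hpos : ∀ t, 0 ≤ t → t ∈ K := by
      intro t ht
      choose m hmS hmn using fun k : ℕ => hinf'.exists_gt k
      set s : ℕ → ℝ := fun k => w (m k) + w (m k)
      have hs : ∀ k, 0 < s k := fun k => by positivity
      have hs0 : Tendsto s atTop (𝓝 0) := by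
        have h0 : Tendsto w atTop (𝓝 0) := tendsto_const_nhds.div_atTop
          ((tendsto_pow_atTop_atTop_of_one_lt one_lt_two).comp (tendsto_add_atTop_nat 1))
        simpa using ((h0.comp (tendsto_atTop_mono (fun k => (hmn k).le) tendsto_id)).add
          (h0.comp (tendsto_atTop_mono (fun k => (hmn k).le) tendsto_id)))
      have hlim : Tendsto (fun k => (⌊t / s k⌋₊ : ℝ) * s k) atTop (𝓝 t) := by
        refine tendsto_of_tendsto_of_tendsto_of_le_of_le (g := fun k => t - s k) (h := fun _ => t)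
          (by simpa using hs0.const_sub t) tendsto_const_nhds (fun k => ?_) fun k => ?_
        · have h := mul_lt_mul_of_pos_right (Nat.lt_floor_add_one (t / s k)) (hs k)
          rw [div_mul_cancel₀ t (hs k).ne', add_mul, one_mul] at h
          show t - s k ≤ _
          linarith
        · have h := mul_le_mul_of_nonneg_right (Nat.floor_le (div_nonneg ht (hs k).le)) (hs k).le
          rwa [div_mul_cancel₀ t (hs k).ne'] at h
      refine hcl.mem_of_tendsto hlim (Eventually.of_forall fun k => ?_)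
      have := K.nsmul_mem (hsum _ _ (hmS k) (hmS k)) ⌊t / s k⌋₊
      rwa [nsmul_eq_mul] at this
    intro t x hx
    obtain ⟨j, hj⟩ := exists_nat_gt (-t / τ)
    have := hpos (t + j * τ) (by rw [div_lt_iff₀ hτ] at hj; linarith) x hx
    have hjτ : φ ((j : ℝ) * τ) x = x := by
      have h := (G x).nsmul_mem (show τ ∈ G x from hper x) j
      rwa [nsmul_eq_mul] at h
    rwa [hadd, hjτ] at this
  -- the invariant geodesic is one orbit
  set p := c 0
  have hpT : p ∈ T := hcT ▸ mem_range_self 0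
  set q := ψ (φ (w n₀) p)
  have hqT : q ∈ T := hn₀ ▸ hSinv n₀ p (hn₀ ▸ hpT)
  set O := range fun t => φ t p
  have hOc : IsCompact O := by
    have he : O = (fun t => φ t p) '' Icc 0 (0 + τ) :=
      ((show Function.Periodic (fun t => φ t p) τ from fun t => by
        show φ (t + τ) p = φ t p
        rw [hadd, hper]).image_Icc hτ 0).symm
    exact he ▸ isCompact_Icc.image (hcont p)
  letI := gMetricSpace g
  have hqO : q ∉ O := by
    rintro ⟨t, ht⟩
    exact hfix p (w n₀ - t) (by
      rw [sub_eq_neg_add, hadd]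
      calc ψ (φ (-t) (φ (w n₀) p)) = φ (-t) q := (hcomm _ _).symm
        _ = p := by rw [← show φ t p = q from ht, hneg])
  set f : M → ℝ := fun x => infDist x O
  have hfinv : ∀ t x, f (φ t x) = f x := by
    have hle : ∀ t x, f (φ t x) ≤ f x := fun t x => by
      obtain ⟨o, ⟨r, rfl⟩, ho⟩ := hOc.exists_infDist_eq_dist ⟨p, 0, hzero p⟩ x
      show infDist (φ t x) O ≤ infDist x O
      rw [ho]
      refine (infDist_le_dist_of_mem (show φ t (φ r p) ∈ O from ⟨t + r, hadd t r p⟩)).trans_eq ?_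
      show gdist g (φ t x) (φ t (φ r p)) = gdist g x (φ r p)
      exact gdist_map_eq (hiso t) (hiso (-t)) (hneg t) _ _
    intro t x
    refine le_antisymm (hle t x) ?_
    have := hle (-t) (φ t x)
    rwa [hneg] at this
  have hfq : 0 < f q := by
    refine lt_of_le_of_ne infDist_nonneg fun h => hqO ?_
    exact (hOc.isClosed.mem_iff_infDist_zero ⟨p, 0, hzero p⟩).2 h.symm
  have hfp : f p = 0 := infDist_zero_of_mem ⟨0, hzero p⟩
  have hval : Icc 0 (f q) ⊆ range fun r : ℚ => f (c r) := by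
    intro δ hδ
    obtain ⟨v, hv⟩ := mem_range.1 (show q ∈ range c from hcT ▸ hqT)
    obtain ⟨s, -, hs⟩ := intermediate_value_uIcc (a := (0 : ℝ)) (b := v)
      ((continuous_infDist_pt O).comp hc.continuous).continuousOn
      (show δ ∈ uIcc (f (c 0)) (f (c v)) by
        rw [hfp, hv, uIcc_of_le hfq.le]; exact hδ)
    obtain ⟨r, t, hrt⟩ := hc.exists_rat_mem hD hτ' hp (γ := fun t => φ t (c s)) (hcont _)
      (fun t => hcT ▸ hall t _ (hcT ▸ mem_range_self s)) (fun a b hab => by
        by_contra hconst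
        push Not at hconst
        obtain ⟨a', ha'⟩ := hcyc (c s)
        obtain ⟨tt, htt⟩ := hrest (c s)
        have hmemG : ∀ u ∈ Icc (0 : ℝ) (b - a), u ∈ G (c s) := fun u hu => by
          show φ u (c s) = c s
          have := congrArg (φ (-a)) (hconst (a + u) ⟨by linarith [hu.1], by linarith [hu.2]⟩)
          rwa [← hadd, ← hadd, neg_add_cancel, hzero, neg_add_cancel_left] at this
        refine htt ?_
        show tt ∈ G (c s)
        obtain ⟨k, hk⟩ := exists_nat_gt (|tt| / (b - a))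
        rw [div_lt_iff₀ (by linarith)] at hk
        have hk0 : (0 : ℝ) < k := by nlinarith [abs_nonneg tt]
        have h1 : |tt| / k ∈ G (c s) := hmemG _ ⟨by positivity, by
          rw [div_le_iff₀ hk0]; linarith⟩
        have h2 := (G (c s)).nsmul_mem h1 k
        rw [nsmul_eq_mul, mul_div_cancel₀ _ hk0.ne'] at h2
        rcases abs_choice tt with h | h <;> rw [h] at h2
        · exact h2
        · simpa using (G (c s)).neg_mem h2)
    refine ⟨r, ?_⟩
    show f (c r) = δ
    rw [← hrt, hfinv]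
    exact hs
  exact ((Cardinal.Real.Icc_countable_iff.not.2 (not_le.2 hfq))
    ((countable_range _).mono hval))

end

end Vale.Agent.P216.Sym
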