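import Vale.Agent.P216.Sym.Exists

/-!
A symmetric closed geodesic is moved to infinitely many closed geodesics by a commuting flow.
-/

open Set Filter Metric Manifold Bundle
open scoped Topology ContDiff

namespace Vale.Agent.P216.Sym

open Vale.Agent.P216.Chord

noncomputable section

/-- A continuous map from the reals into a finite set is constant. -/
theorem eq_of_mapsTo_finite {X Y : Type*} [TopologicalSpace X] [PreconnectedSpace X]
    [TopologicalSpace Y] [T1Space Y] {f : X → Y} (hf : Continuous f) {T : Set Y} (hT : T.Finite)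
    (hm : ∀ x, f x ∈ T) (x x' : X) : f x = f x' := by
  have hcompl : (f ⁻¹' {f x'})ᶜ = f ⁻¹' (T \ {f x'}) := by
    ext z
    simp [hm z]
  have hcl : IsClopen (f ⁻¹' {f x'}) := ⟨isClosed_singleton.preimage hf,
    isClosed_compl_iff.1 (hcompl ▸ hT.diff.isClosed.preimage hf)⟩
  exact eq_univ_iff_forall.1 (hcl.eq_univ ⟨x', rfl⟩) x

variable {E : Type*} [NormedAddCommGroup E] [NormedSpace ℝ E] [FiniteDimensional ℝ E]
  {M : Type*} [TopologicalSpace M] [ChartedSpace E M] [IsManifold 𝓘(ℝ, E) ∞ M]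
  [T2Space M] [CompactSpace M] [PreconnectedSpace M]
  {g : ContMDiffRiemannianMetric 𝓘(ℝ, E) ∞ E (fun x : M => TangentSpace 𝓘(ℝ, E) x)}
  {D τ : ℝ} {c : ℝ → M}

omit [FiniteDimensional ℝ E] in
theorem IsLocalGeo.map (h : IsLocalGeo g D c) {f : M → M}
    (hf : ∀ x y, gdist g (f x) (f y) = gdist g x y) : IsLocalGeo g D (f ∘ c) :=
  fun v w hvw hw => (hf _ _).trans (h v w hvw hw)

theorem image_mem (h : IsLocalGeo g D c) (hD : 0 < D) (hτ : 0 < τ) (hper : ∀ t, c (t + τ) = c t)
    {f : M → M} (hf : ∀ x y, gdist g (f x) (f y) = gdist g x y) :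
    f '' range c ∈ closedGeodesicImages g :=
  ⟨f ∘ c, (h.map hf).isClosedGeodesic hD hτ fun t => congrArg f (hper t), range_comp f c⟩

omit [ChartedSpace E M] [IsManifold 𝓘(ℝ, E) ∞ M] [T2Space M] [CompactSpace M]
  [PreconnectedSpace M] [TopologicalSpace M] [FiniteDimensional ℝ E] in
theorem exists_mem_Icc (hτ : 0 < τ) (hper : ∀ t, c (t + τ) = c t) {x : M} (hx : x ∈ range c) :
    ∃ v ∈ Icc 0 τ, c v = x := by
  obtain ⟨t, rfl⟩ := hx
  exact ⟨toIcoMod hτ 0 t, ⟨(toIcoMod_mem_Ico hτ 0 t).1,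
    by linarith [(toIcoMod_mem_Ico hτ 0 t).2]⟩, (Function.Periodic.sub_zsmul_eq hper _ :)⟩

omit [FiniteDimensional ℝ E] in
theorem IsLocalGeo.finite_fiber (h : IsLocalGeo g D c) (hD : 0 < D) (p : M) (τ : ℝ) :
    {v ∈ Icc 0 τ | c v = p}.Finite := by
  refine Set.Finite.of_injOn (f := fun v : ℝ => ⌊v⌋) (t := Icc (0 : ℤ) ⌊τ⌋)
    (fun v hv => ⟨Int.floor_nonneg.2 hv.1.1, Int.floor_le_floor hv.1.2⟩) ?_ (finite_Icc _ _)
  intro v hv w hw he
  have h1 := Int.abs_sub_lt_one_of_floor_eq_floor he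
  have h2 := h.dist h1.le
  rw [hv.2, hw.2, gdist_self] at h2
  exact sub_eq_zero.1 (abs_eq_zero.1 ((mul_eq_zero.1 h2.symm).resolve_left hD.ne'))

omit [FiniteDimensional ℝ E] in
/-- Near a point of a closed local geodesic, finitely many points of the geodesic have a given
distance. -/
theorem IsLocalGeo.exists_finite_sphere (h : IsLocalGeo g D c) (hD : 0 < D) (hτ : 0 < τ)
    (hper : ∀ t, c (t + τ) = c t) (p : M) :
    ∃ η > 0, ∀ δ < η, {x ∈ range c | gdist g p x = δ}.Finite := by
  set Z := {v ∈ Icc 0 τ | c v = p}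
  have hZ : Z.Finite := h.finite_fiber hD p τ
  set C := Icc 0 τ \ ⋃ z ∈ Z, Ioo (z - 1) (z + 1)
  have hC : IsCompact C := isCompact_Icc.diff (isOpen_biUnion fun z _ => isOpen_Ioo)
  have hpos : ∃ η > 0, ∀ v ∈ C, η ≤ gdist g p (c v) := by
    rcases C.eq_empty_or_nonempty with he | he
    · exact ⟨1, one_pos, fun v hv => absurd hv (he ▸ notMem_empty v)⟩
    obtain ⟨v₀, hv₀, hmin⟩ := hC.exists_isMinOn he
      ((continuous_gdist g).comp (continuous_const.prodMk h.continuous)).continuousOn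
    refine ⟨gdist g p (c v₀), lt_of_le_of_ne (gdist_nonneg _ _) fun h0 => hv₀.2 ?_,
      fun v hv => hmin hv⟩
    exact mem_biUnion (show v₀ ∈ Z from ⟨hv₀.1, (gdist_eq_zero.1 h0.symm).symm⟩)
      ⟨by linarith, by linarith⟩
  obtain ⟨η, hη, hηC⟩ := hpos
  refine ⟨η, hη, fun δ hδ => ?_⟩
  refine ((hZ.biUnion fun z _ => ((finite_singleton (c (z - δ / D))).insert (c (z + δ / D))))).subset ?_
  rintro x ⟨hx, hxd⟩
  obtain ⟨v, hv, rfl⟩ := exists_mem_Icc hτ hper hx
  have hvC : v ∉ C := fun hvC => absurd (hηC v hvC) (by linarith)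
  simp only [C, mem_diff, hv, true_and, not_not, mem_iUnion, exists_prop] at hvC
  obtain ⟨z, hz, h1, h2⟩ := hvC
  refine mem_biUnion hz ?_
  have hd := h.dist (v := z) (w := v) (abs_le.2 ⟨by linarith, by linarith⟩)
  rw [hz.2, hxd] at hd
  rcases le_total z v with hle | hle
  · left
    rw [abs_sub_comm, abs_of_nonneg (by linarith)] at hd
    rw [hd]; congr 1; field_simp; ring
  · right
    rw [abs_of_nonneg (by linarith)] at hd
    show c v = c (z - δ / D)
    rw [hd]; congr 1; field_simp; ring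

omit [FiniteDimensional ℝ E] in
/-- A flow moving a set through finitely many sets preserves it. -/
theorem flow_image_eq (φ : ℝ → M → M) (hzero : ∀ x, φ 0 x = x)
    (hadd : ∀ s t x, φ (s + t) x = φ s (φ t x)) {𝒮 : Set (Set M)} (hfin : 𝒮.Finite) {S : Set M}
    (himg : ∀ t, φ t '' S ∈ 𝒮) (t : ℝ) : φ t '' S = S := by
  let H : AddSubgroup ℝ :=
    { carrier := {t | φ t '' S = S}
      zero_mem' := by simp [hzero]
      add_mem' := fun {s t} hs ht => by
        simp only [mem_setOf_eq] at hs ht ⊢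
        calc φ (s + t) '' S = φ s '' (φ t '' S) := by rw [image_image]; simp only [hadd]
          _ = S := by rw [ht, hs]
      neg_mem' := fun {t} ht => by
        simp only [mem_setOf_eq] at ht ⊢
        calc φ (-t) '' S = φ (-t) '' (φ t '' S) := by rw [ht]
          _ = S := by rw [image_image]; simp only [← hadd, neg_add_cancel, hzero, image_id'] }
  obtain ⟨N, hN⟩ : ∃ N, N = hfin.toFinset.card := ⟨_, rfl⟩
  set u := t / (N.factorial : ℝ)
  obtain ⟨i, hi, j, hj, hne, heq⟩ := Finset.exists_ne_map_eq_of_card_lt_of_maps_to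
    (s := Finset.range (N + 1)) (t := hfin.toFinset) (f := fun k : ℕ => φ (k * u) '' S)
    (by simp [← hN]) (fun k _ => hfin.mem_toFinset.2 (himg _))
  wlog hij : i < j generalizing i j
  · exact this j hj i hi hne.symm heq.symm (lt_of_le_of_ne (not_lt.1 hij) hne.symm)
  have hd : ((j - i : ℕ) : ℝ) * u ∈ H := by
    show φ _ '' S = S
    have h2 : φ (-((i : ℝ) * u)) '' (φ ((j : ℝ) * u) '' S) =
        φ (-((i : ℝ) * u)) '' (φ ((i : ℝ) * u) '' S) := congrArg _ heq.symm
    rw [image_image, image_image] at h2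
    simp only [← hadd, neg_add_cancel, hzero, image_id'] at h2
    rw [show ((j - i : ℕ) : ℝ) * u = -((i : ℝ) * u) + j * u by rw [Nat.cast_sub hij.le]; ring]
    exact h2
  obtain ⟨m, hm⟩ : j - i ∣ N.factorial := Nat.dvd_factorial (by omega) (by
    have := Finset.mem_range.1 hj
    omega)
  have hmem := H.nsmul_mem hd m
  rw [nsmul_eq_mul, ← mul_assoc, mul_comm (m : ℝ), ← Nat.cast_mul, ← hm,
    mul_div_cancel₀ t (by positivity)] at hmem
  exact hmem

/-- An isometric involution with a fixed point, other than the identity, commuting with a flow of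
isometries all of whose rest points it fixes, gives infinitely many closed geodesics. -/
theorem infinite_of_involution
    (φ : ℝ → M → M) (hzero : ∀ x, φ 0 x = x) (hadd : ∀ s t x, φ (s + t) x = φ s (φ t x))
    (hiso : ∀ t, IsLocalIsometry g (φ t)) (hcont : ∀ x, Continuous fun t => φ t x)
    {σ : M → M} (hσiso : IsLocalIsometry g σ) (hinv : ∀ x, σ (σ x) = x)
    (hcomm : ∀ t x, φ t (σ x) = σ (φ t x)) (hrest : ∀ x, (∀ t, φ t x = x) → σ x = x)
    {a₀ : M} (ha₀ : σ a₀ = a₀) {q₀ : M} (hq₀ : σ q₀ ≠ q₀) :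
    (closedGeodesicImages g).Infinite := by
  obtain ⟨D, τ, c, hD, hτ, hc, hper, hsym⟩ := hasSymGeo (g := g) hσiso hinv ha₀ hq₀
  obtain ⟨ρ, hρ0, hρu⟩ := exists_unique_radius g
  have hσd : ∀ x y, gdist g (σ x) (σ y) = gdist g x y := gdist_map_eq hσiso hσiso hinv
  have hφd : ∀ t x y, gdist g (φ t x) (φ t y) = gdist g x y := fun t =>
    gdist_map_eq (hiso t) (hiso (-t)) fun x => by rw [← hadd, neg_add_cancel, hzero]
  set h : ℝ := min (1 / 2) (ρ / (2 * D))
  have h0 : 0 < h := by positivity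
  have hh1 : h ≤ 1 / 2 := min_le_left _ _
  have hhρ : ∀ a : ℝ, |a| ≤ h → D * |a| < ρ := fun a ha => by
    refine (mul_le_mul_of_nonneg_left (ha.trans (min_le_right _ _)) hD.le).trans_lt ?_
    rw [mul_div_assoc', div_lt_iff₀ (by positivity)]
    nlinarith
  -- a piece of `c` is not fixed
  have hpiece : ∀ p a : ℝ, a ≠ 0 → |a| ≤ h / 2 →
      ¬ ∀ s ∈ Icc (0 : ℝ) 1, σ (c (p + a * s)) = c (p + a * s) := by
    intro p a ha0 hah hfix
    let Fx : ℝ → Prop := fun p => ∀ s ∈ Icc (0 : ℝ) 1, σ (c (p + a * s)) = c (p + a * s)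
    have hext : ∀ (p b : ℝ), |b| ≤ h →
        (∀ s ∈ Icc (0 : ℝ) (1 / 2), σ (c (p + b * s)) = c (p + b * s)) →
        ∀ s ∈ Icc (0 : ℝ) 1, σ (c (p + b * s)) = c (p + b * s) := by
      intro p b hb hhalf
      have hs1 := hc.isSegment p (a := b) (hb.trans (hh1.trans (by norm_num)))
      have hs2 := (hc.map hσd).isSegment p (a := b) (hb.trans (hh1.trans (by norm_num)))
      exact hρu _ _ _ hs2 hs1 (hhρ b hb) (hhalf 0 ⟨le_rfl, by norm_num⟩) (Or.inr hhalf)
    have h2a : |2 * a| ≤ h ∧ |(-2) * a| ≤ h := by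
      rw [abs_mul, abs_mul]; norm_num; linarith
    have hfwd : ∀ p, Fx p → Fx (p + a) := by
      intro p hp s hs
      have := hext p (2 * a) h2a.1 (fun s hs => by
        have := hp (2 * s) ⟨by linarith [hs.1], by linarith [hs.2]⟩
        rwa [show p + a * (2 * s) = p + 2 * a * s by ring] at this)
        ((1 + s) / 2) ⟨by linarith [hs.1], by linarith [hs.2]⟩
      rwa [show p + 2 * a * ((1 + s) / 2) = p + a + a * s by ring] at this
    have hbwd : ∀ p, Fx p → Fx (p - a) := by
      intro p hp s hs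
      have := hext (p + a) (-2 * a) h2a.2 (fun s hs => by
        have := hp (1 - 2 * s) ⟨by linarith [hs.2], by linarith [hs.1]⟩
        rwa [show p + a * (1 - 2 * s) = p + a + -2 * a * s by ring] at this)
        ((2 - s) / 2) ⟨by linarith [hs.2], by linarith [hs.1]⟩
      rwa [show p + a + -2 * a * ((2 - s) / 2) = p - a + a * s by ring] at this
    have hall : ∀ k : ℤ, Fx (p + k * a) := by
      intro k
      induction k using Int.induction_on with
      | zero =>
        rw [Int.cast_zero, zero_mul, add_zero]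
        exact hfix
      | succ k ih => convert hfwd _ ih using 1; push_cast; ring
      | pred k ih => convert hbwd _ ih using 1; push_cast; ring
    have hfixed : ∀ v, σ (c v) = c v := by
      intro v
      have := hall ⌊(v - p) / a⌋ (Int.fract ((v - p) / a))
        ⟨Int.fract_nonneg _, (Int.fract_lt_one _).le⟩
      rwa [show p + ⌊(v - p) / a⌋ * a + a * Int.fract ((v - p) / a) = v by
        rw [Int.fract]; field_simp; ring] at this
    have hd := hc (-(1 / 4)) (1 / 4) (by norm_num) (by norm_num)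
    rw [hsym, hfixed, gdist_self] at hd
    linarith
  -- hence the fixed times are separated
  have hsep : ∀ u v, σ (c u) = c u → σ (c v) = c v → |u - v| ≤ h / 2 → u = v := by
    intro u v hu hv huv
    by_contra hne
    refine hpiece u (v - u) (sub_ne_zero.2 (Ne.symm hne)) (by rwa [abs_sub_comm]) ?_
    have hb : |v - u| ≤ h := by rw [abs_sub_comm]; linarith
    have hs1 := hc.isSegment u (a := v - u) (hb.trans (hh1.trans (by norm_num)))
    have hs2 := (hc.map hσd).isSegment u (a := v - u) (hb.trans (hh1.trans (by norm_num)))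
    exact hρu _ _ _ hs2 hs1 (hhρ _ hb) (by simpa using hu) (Or.inl (by simpa using hv))
  intro hfin
  set S := range c
  have hall : ∀ t, φ t '' S = S := flow_image_eq φ hzero hadd hfin fun t =>
    image_mem hc hD hτ hper (hφd t)
  have hS : ∀ t, ∀ p ∈ S, φ t p ∈ S := fun t p hp => hall t ▸ mem_image_of_mem _ hp
  set Zσ := {v ∈ Icc 0 τ | σ (c v) = c v}
  have hZσ : Zσ.Finite := by
    refine Set.Finite.of_injOn (f := fun v : ℝ => ⌊v / (h / 2)⌋) (t := Icc (0 : ℤ) ⌊τ / (h / 2)⌋)
      (fun v hv => ⟨Int.floor_nonneg.2 (div_nonneg hv.1.1 (by linarith)),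
        Int.floor_le_floor ((div_le_div_iff_of_pos_right (by linarith)).2 hv.1.2)⟩)
      ?_ (finite_Icc _ _)
    intro v hv w hw he
    have h1 := Int.abs_sub_lt_one_of_floor_eq_floor he
    rw [← sub_div, abs_div, abs_of_pos (show 0 < h / 2 by linarith), div_lt_one (by linarith)] at h1
    exact hsep v w hv.2 hw.2 h1.le
  have hσ0 : σ (c 0) = c 0 := by simpa using (hsym 0).symm
  have hc0 : ∀ t, φ t (c 0) = c 0 := by
    intro t
    have hm : ∀ t, φ t (c 0) ∈ c '' Zσ := fun t => by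
      obtain ⟨v, hv, hve⟩ := exists_mem_Icc hτ hper (hS t _ (mem_range_self 0))
      exact ⟨v, ⟨hv, by rw [hve, ← hcomm, hσ0]⟩, hve⟩
    rw [eq_of_mapsTo_finite (hcont (c 0)) (hZσ.image c) hm t 0, hzero]
  obtain ⟨η, hη, hfinη⟩ := hc.exists_finite_sphere hD hτ hper (c 0)
  set u := min (h / 2) (η / (2 * D))
  have hu0 : 0 < u := by positivity
  have huh : u ≤ h / 2 := min_le_left _ _
  have hdu : gdist g (c 0) (c u) = D * u := by
    rw [hc 0 u hu0.le (by linarith), sub_zero]
  have hδ : D * u < η := by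
    refine (mul_le_mul_of_nonneg_left (min_le_right _ _) hD.le).trans_lt ?_
    rw [mul_div_assoc', div_lt_iff₀ (by positivity)]
    nlinarith
  have hcu : ∀ t, φ t (c u) = c u := by
    intro t
    have hm : ∀ t, φ t (c u) ∈ {x ∈ range c | gdist g (c 0) x = D * u} := fun t =>
      ⟨hS t _ (mem_range_self u), by conv_lhs => rw [← hc0 t, hφd, hdu]⟩
    rw [eq_of_mapsTo_finite (hcont (c u)) (hfinη _ hδ) hm t 0, hzero]
  have := hsep 0 u hσ0 (hrest _ hcu) (by rw [zero_sub, abs_neg, abs_of_pos hu0]; exact huh)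
  linarith

/-- A nontrivial periodic flow of isometries with a fixed point gives infinitely many closed
geodesics. -/
theorem infinite_of_circle
    (φ : ℝ → M → M) (hzero : ∀ x, φ 0 x = x) (hadd : ∀ s t x, φ (s + t) x = φ s (φ t x))
    (hiso : ∀ t, IsLocalIsometry g (φ t)) (hcont : ∀ x, Continuous fun t => φ t x)
    {τ : ℝ} (hτ : 0 < τ) (hper : ∀ x, φ τ x = x) {a₀ : M} (ha₀ : ∀ t, φ t a₀ = a₀)
    (hmove : ∃ t x, φ t x ≠ x) : (closedGeodesicImages g).Infinite := by
  classical
  have hex : ∃ n : ℕ, ∃ x, φ (τ / 2 ^ n) x ≠ x := by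
    by_contra hall
    push Not at hall
    obtain ⟨t, x, hx⟩ := hmove
    let H : AddSubgroup ℝ :=
      { carrier := {s | φ s x = x}
        zero_mem' := hzero x
        add_mem' := fun {s s'} (hs : φ s x = x) (hs' : φ s' x = x) => by
          show φ (s + s') x = x
          rw [hadd, hs', hs]
        neg_mem' := fun {s} (hs : φ s x = x) => by
          show φ (-s) x = x
          conv_lhs => rw [← hs, ← hadd, neg_add_cancel, hzero] }
    have hlim : Tendsto (fun n : ℕ => (⌊t * 2 ^ n / τ⌋ : ℝ) * (τ / 2 ^ n)) atTop (𝓝 t) := by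
      have h0 : Tendsto (fun n : ℕ => τ / (2 : ℝ) ^ n) atTop (𝓝 0) :=
        tendsto_const_nhds.div_atTop (tendsto_pow_atTop_atTop_of_one_lt one_lt_two)
      refine tendsto_of_tendsto_of_tendsto_of_le_of_le
        (g := fun n : ℕ => t - τ / 2 ^ n) (h := fun _ => t) (by simpa using h0.const_sub t)
        tendsto_const_nhds (fun n => ?_) fun n => ?_
      · have h := Int.lt_floor_add_one (t * 2 ^ n / τ)
        have hp : 0 < τ / (2 : ℝ) ^ n := by positivity
        have := mul_lt_mul_of_pos_right h hp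
        rw [show t * 2 ^ n / τ * (τ / 2 ^ n) = t by field_simp, add_mul, one_mul] at this
        show t - τ / 2 ^ n ≤ _
        linarith
      · have h := Int.floor_le (t * 2 ^ n / τ)
        have hp : 0 ≤ τ / (2 : ℝ) ^ n := by positivity
        have := mul_le_mul_of_nonneg_right h hp
        rwa [show t * 2 ^ n / τ * (τ / 2 ^ n) = t by field_simp] at this
    refine hx (tendsto_nhds_unique (((hcont x).tendsto t).comp hlim) ?_)
    refine tendsto_const_nhds.congr fun n => (Eq.symm ?_)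
    have := H.zsmul_mem (show τ / 2 ^ n ∈ H from hall n x) ⌊t * 2 ^ n / τ⌋
    rwa [zsmul_eq_mul] at this
  obtain ⟨n, ⟨x, hx⟩, hmin⟩ : ∃ n, (∃ x, φ (τ / 2 ^ n) x ≠ x) ∧
      ∀ m < n, ∀ x, φ (τ / 2 ^ m) x = x :=
    ⟨Nat.find hex, Nat.find_spec hex, fun m hm => by
      have := Nat.find_min hex hm
      push Not at this
      exact this⟩
  obtain ⟨m, rfl⟩ : ∃ m, n = m + 1 := by
    cases n with
    | zero => simp [hper] at hx
    | succ m => exact ⟨m, rfl⟩
  refine infinite_of_involution φ hzero hadd hiso hcont (hiso (τ / 2 ^ (m + 1))) (fun y => ?_)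
    (fun t y => ?_) (fun y hy => hy _) (ha₀ _) hx
  · rw [← hadd, show τ / 2 ^ (m + 1) + τ / 2 ^ (m + 1) = τ / 2 ^ m by rw [pow_succ]; field_simp; ring]
    exact hmin m (Nat.lt_succ_self m) y
  · rw [← hadd, ← hadd, add_comm]

end

end Vale.Agent.P216.Sym
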