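import Vale.Agent.P216.Sym.Unique

/-!
Short segments as a continuous function of their ends, and curves which are locally segments.
-/

open Set Filter Metric Manifold Bundle
open scoped Topology ContDiff

namespace Vale.Agent.P216.Sym

open Vale.Agent.P216.Chord

noncomputable section

variable {E : Type*} [NormedAddCommGroup E] [NormedSpace ℝ E]
  {M : Type*} [TopologicalSpace M] [ChartedSpace E M] [IsManifold 𝓘(ℝ, E) ∞ M]
  [T2Space M] [CompactSpace M] [PreconnectedSpace M]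
  {g : ContMDiffRiemannianMetric 𝓘(ℝ, E) ∞ E (fun x : M => TangentSpace 𝓘(ℝ, E) x)}

variable (g) in
theorem exists_point (a b : M) (s : ℝ) : ∃ z, s ∈ Icc (0 : ℝ) 1 →
    gdist g a z = s * gdist g a b ∧ gdist g z b = (1 - s) * gdist g a b := by
  obtain ⟨c, h0, h1, hc⟩ := exists_segment (g := g) a b
  refine ⟨c s, fun hs => ⟨?_, ?_⟩⟩
  · have := hc 0 ⟨le_rfl, zero_le_one⟩ s hs
    rw [h0, zero_sub, abs_neg, abs_of_nonneg hs.1] at this
    linarith
  · have := hc s hs 1 ⟨zero_le_one, le_rfl⟩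
    rw [h1, abs_sub_comm, abs_of_nonneg (by linarith [hs.2])] at this
    linarith

variable (g) in
/-- The point dividing the segment from `a` to `b` in the ratio `s`. -/
def seg (a b : M) (s : ℝ) : M := (exists_point g a b s).choose

variable {a b : M} {s : ℝ}

theorem seg_left (hs : s ∈ Icc (0 : ℝ) 1) : gdist g a (seg g a b s) = s * gdist g a b :=
  ((exists_point g a b s).choose_spec hs).1

theorem seg_right (hs : s ∈ Icc (0 : ℝ) 1) : gdist g (seg g a b s) b = (1 - s) * gdist g a b :=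
  ((exists_point g a b s).choose_spec hs).2

variable (a b) in
theorem seg_zero : seg g a b 0 = a := by
  have := seg_left (g := g) (a := a) (b := b) (s := 0) ⟨le_rfl, zero_le_one⟩
  rw [zero_mul, gdist_eq_zero] at this
  exact this.symm

variable (a b) in
theorem seg_one : seg g a b 1 = b := by
  have := seg_right (g := g) (a := a) (b := b) (s := 1) ⟨zero_le_one, le_rfl⟩
  rwa [sub_self, zero_mul, gdist_eq_zero] at this

/-- A curve which is `L`-Lipschitz and whose ends have distance `L` is a segment. -/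
theorem isSegment_of_le {L : ℝ} {c : ℝ → M} (hL : L ≤ gdist g (c 0) (c 1))
    (h : ∀ s ∈ Icc (0 : ℝ) 1, ∀ t ∈ Icc (0 : ℝ) 1, s ≤ t → gdist g (c s) (c t) ≤ L * (t - s)) :
    IsSegment g L c := by
  have key : ∀ s ∈ Icc (0 : ℝ) 1, ∀ t ∈ Icc (0 : ℝ) 1, s ≤ t →
      gdist g (c s) (c t) = L * (t - s) := by
    intro s hs t ht hst
    refine le_antisymm (h s hs t ht hst) ?_
    have h1 := h 0 ⟨le_rfl, zero_le_one⟩ s hs hs.1
    have h2 := h t ht 1 ⟨zero_le_one, le_rfl⟩ ht.2
    linarith [gdist_triangle (g := g) (c 0) (c s) (c 1), gdist_triangle (g := g) (c s) (c t) (c 1)]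
  intro s hs t ht
  rcases le_total s t with hst | hst
  · rw [key s hs t ht hst, abs_sub_comm, abs_of_nonneg (by linarith)]
  · rw [gdist_comm, key t ht s hs hst, abs_of_nonneg (by linarith)]

variable (g) in
/-- Segments shorter than `ρ` are determined by their ends and by their first half. -/
def UniqueRadius (ρ : ℝ) : Prop :=
  0 < ρ ∧ ∀ (L : ℝ) (c c' : ℝ → M), IsSegment g L c → IsSegment g L c' → L < ρ → c 0 = c' 0 →
    (c 1 = c' 1 ∨ ∀ s ∈ Icc (0 : ℝ) (1 / 2), c s = c' s) → ∀ s ∈ Icc (0 : ℝ) 1, c s = c' s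

variable {ρ : ℝ}

theorem seg_unique (hρ : UniqueRadius g ρ) (hd : gdist g a b < ρ) {z : M}
    (hs : s ∈ Icc (0 : ℝ) 1) (h1 : gdist g a z = s * gdist g a b)
    (h2 : gdist g z b = (1 - s) * gdist g a b) : z = seg g a b s := by
  rcases hs.1.eq_or_lt with rfl | hs0
  · rw [zero_mul, gdist_eq_zero] at h1
    rw [seg_zero, h1]
  rcases hs.2.eq_or_lt with rfl | hs1
  · rw [sub_self, zero_mul, gdist_eq_zero] at h2
    rw [seg_one, h2]
  have h1s : 0 < 1 - s := by linarith
  set L := gdist g a b with hL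
  have key : ∀ w, gdist g a w = s * L → gdist g w b = (1 - s) * L →
      ∃ c, IsSegment g L c ∧ c 0 = a ∧ c 1 = b ∧ c s = w := by
    intro w hw1 hw2
    obtain ⟨p, p0, p1, hp⟩ := exists_segment (g := g) a w
    obtain ⟨q, q0, q1, hq⟩ := exists_segment (g := g) w b
    set c : ℝ → M := fun u => if u ≤ s then p (u / s) else q ((u - s) / (1 - s))
    have hc0 : c 0 = a := by simp [c, hs.1, p0]
    have hc1 : c 1 = b := by simp [c, not_le.2 hs1, h1s.ne', q1]
    have hcs : c s = w := by simp [c, hs0.ne', p1]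
    refine ⟨c, isSegment_of_le (by rw [hc0, hc1]) ?_, hc0, hc1, hcs⟩
    have hA : ∀ u ∈ Icc 0 s, ∀ v ∈ Icc 0 s, u ≤ v → gdist g (c u) (c v) ≤ L * (v - u) := by
      intro u hu v hv huv
      simp only [c, if_pos hu.2, if_pos hv.2]
      rw [hp _ ⟨div_nonneg hu.1 hs0.le, (div_le_one hs0).2 hu.2⟩ _
        ⟨div_nonneg hv.1 hs0.le, (div_le_one hs0).2 hv.2⟩, hw1, ← sub_div, abs_div,
        abs_of_pos hs0, abs_sub_comm, abs_of_nonneg (by linarith)]
      exact le_of_eq (by field_simp)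
    have hB : ∀ u ∈ Icc s 1, ∀ v ∈ Icc s 1, u ≤ v → gdist g (c u) (c v) ≤ L * (v - u) := by
      intro u hu v hv huv
      have e : ∀ r ∈ Icc s 1, c r = q ((r - s) / (1 - s)) := by
        intro r hr
        rcases hr.1.eq_or_lt with h | h
        · rw [← h, hcs]; simp [q0]
        · simp [c, not_le.2 h]
      have hI : ∀ r ∈ Icc s 1, (r - s) / (1 - s) ∈ Icc (0 : ℝ) 1 := fun r hr =>
        ⟨div_nonneg (by linarith [hr.1]) h1s.le, (div_le_one h1s).2 (by linarith [hr.2])⟩
      rw [e u hu, e v hv, hq _ (hI u hu) _ (hI v hv), hw2, ← sub_div, abs_div, abs_of_pos h1s,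
        abs_sub_comm, abs_of_nonneg (by linarith)]
      exact le_of_eq (by field_simp; ring)
    intro u hu v hv huv
    rcases le_total v s with h | h
    · exact hA u ⟨hu.1, huv.trans h⟩ v ⟨hv.1, h⟩ huv
    rcases le_total s u with h' | h'
    · exact hB u ⟨h', hu.2⟩ v ⟨h, hv.2⟩ huv
    have e1 := hA u ⟨hu.1, h'⟩ s ⟨hs.1, le_rfl⟩ h'
    have e2 := hB s ⟨le_rfl, hs.2⟩ v ⟨h, hv.2⟩ h
    linarith [gdist_triangle (g := g) (c u) (c s) (c v)]
  obtain ⟨c, hc, c0, c1, cs⟩ := key z h1 h2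
  obtain ⟨c', hc', c0', c1', cs'⟩ := key _ (seg_left hs) (seg_right hs)
  rw [← cs, ← cs']
  exact hρ.2 L c c' hc hc' hd (c0.trans c0'.symm) (Or.inl (c1.trans c1'.symm)) s hs

theorem seg_eq_of_isSegment (hρ : UniqueRadius g ρ) {L : ℝ} {c : ℝ → M} (hc : IsSegment g L c)
    (hL : L < ρ) (hs : s ∈ Icc (0 : ℝ) 1) : seg g (c 0) (c 1) s = c s := by
  have e : gdist g (c 0) (c 1) = L := by
    simpa using hc 0 ⟨le_rfl, zero_le_one⟩ 1 ⟨zero_le_one, le_rfl⟩
  refine (seg_unique hρ (e.trans_lt hL) hs ?_ ?_).symm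
  · rw [hc 0 ⟨le_rfl, zero_le_one⟩ s hs, e, zero_sub, abs_neg, abs_of_nonneg hs.1, mul_comm]
  · rw [hc s hs 1 ⟨zero_le_one, le_rfl⟩, e, abs_sub_comm, abs_of_nonneg (by linarith [hs.2]),
      mul_comm]

theorem gdist_seg (hρ : UniqueRadius g ρ) (hd : gdist g a b < ρ) {t : ℝ}
    (hs : s ∈ Icc (0 : ℝ) 1) (ht : t ∈ Icc (0 : ℝ) 1) :
    gdist g (seg g a b s) (seg g a b t) = gdist g a b * |s - t| := by
  obtain ⟨c, h0, h1, hc⟩ := exists_segment (g := g) a b
  have e : ∀ u ∈ Icc (0 : ℝ) 1, seg g a b u = c u := fun u hu => by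
    have := seg_eq_of_isSegment hρ (c := c) hc hd hu
    rwa [h0, h1] at this
  rw [e s hs, e t ht]
  exact hc s hs t ht

theorem seg_map (hρ : UniqueRadius g ρ) (hd : gdist g a b < ρ) {h : M → M}
    (hh : ∀ x y, gdist g (h x) (h y) = gdist g x y) (hs : s ∈ Icc (0 : ℝ) 1) :
    seg g (h a) (h b) s = h (seg g a b s) :=
  (seg_unique hρ (by rwa [hh]) hs (by rw [hh, hh, seg_left hs]) (by rw [hh, hh, seg_right hs])).symm

theorem seg_symm (hρ : UniqueRadius g ρ) (hd : gdist g a b < ρ) (hs : s ∈ Icc (0 : ℝ) 1) :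
    seg g b a (1 - s) = seg g a b s := by
  have h1s : 1 - s ∈ Icc (0 : ℝ) 1 := ⟨by linarith [hs.2], by linarith [hs.1]⟩
  refine seg_unique hρ hd hs ?_ ?_
  · rw [gdist_comm, seg_right h1s, gdist_comm b a]; ring
  · rw [gdist_comm, seg_left h1s, gdist_comm b a]

theorem seg_self (hs : s ∈ Icc (0 : ℝ) 1) : seg g a a s = a := by
  have := seg_left (g := g) (a := a) (b := a) hs
  rw [gdist_self, mul_zero, gdist_eq_zero] at this
  exact this.symm

theorem continuousOn_seg (hρ : UniqueRadius g ρ) :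
    ContinuousOn (fun q : (M × M) × ℝ => seg g q.1.1 q.1.2 q.2)
      ({p : M × M | gdist g p.1 p.2 < ρ} ×ˢ Icc (0 : ℝ) 1) := by
  have hc := continuous_gdist g
  rw [continuousOn_iff_isClosed]
  intro A hA
  refine ⟨Prod.fst '' {w : ((M × M) × ℝ) × M | w.2 ∈ A ∧
      gdist g w.1.1.1 w.2 = w.1.2 * gdist g w.1.1.1 w.1.1.2 ∧
      gdist g w.2 w.1.1.2 = (1 - w.1.2) * gdist g w.1.1.1 w.1.1.2}, ?_, ?_⟩
  · refine isClosedMap_fst_of_compactSpace _
      ((hA.preimage continuous_snd).inter ((isClosed_eq ?_ ?_).inter (isClosed_eq ?_ ?_)))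
    · exact hc.comp ((continuous_fst.comp (continuous_fst.comp continuous_fst)).prodMk continuous_snd)
    · exact (continuous_snd.comp continuous_fst).mul (hc.comp (continuous_fst.comp continuous_fst))
    · exact hc.comp (continuous_snd.prodMk (continuous_snd.comp (continuous_fst.comp continuous_fst)))
    · exact (continuous_const.sub (continuous_snd.comp continuous_fst)).mul
        (hc.comp (continuous_fst.comp continuous_fst))
  · ext q
    constructor
    · rintro ⟨hq, hdom⟩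
      exact ⟨⟨(q, seg g q.1.1 q.1.2 q.2), ⟨hq, seg_left hdom.2, seg_right hdom.2⟩, rfl⟩, hdom⟩
    · rintro ⟨⟨⟨q', z⟩, ⟨hz, h1, h2⟩, rfl⟩, hdom⟩
      refine ⟨?_, hdom⟩
      show seg g q'.1.1 q'.1.2 q'.2 ∈ A
      rwa [← seg_unique hρ hdom.1 hdom.2 h1 h2]

variable (g) in
/-- A curve which is a segment of speed `D` on every interval of length at most one. -/
def IsLocalGeo (D : ℝ) (c : ℝ → M) : Prop :=
  ∀ v w : ℝ, v ≤ w → w ≤ v + 1 → gdist g (c v) (c w) = D * (w - v)

theorem IsLocalGeo.dist {D : ℝ} {c : ℝ → M} (h : IsLocalGeo g D c) {v w : ℝ} (hvw : |v - w| ≤ 1) :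
    gdist g (c v) (c w) = D * |v - w| := by
  obtain ⟨h1, h2⟩ := abs_le.1 hvw
  rcases le_total v w with hle | hle
  · rw [h v w hle (by linarith), abs_sub_comm, abs_of_nonneg (by linarith)]
  · rw [gdist_comm, h w v hle (by linarith), abs_of_nonneg (by linarith)]

theorem IsLocalGeo.continuous {D : ℝ} {c : ℝ → M} (h : IsLocalGeo g D c) : Continuous c := by
  letI := gMetricSpace g
  refine Metric.continuous_iff.2 fun v ε hε => ⟨min 1 (ε / (|D| + 1)), by positivity, fun w hw => ?_⟩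
  rw [Real.dist_eq] at hw
  show gdist g (c w) (c v) < ε
  rw [h.dist (hw.le.trans (min_le_left _ _))]
  have h1 : |w - v| * (|D| + 1) < ε :=
    (lt_div_iff₀ (by positivity)).1 (hw.trans_le (min_le_right _ _))
  nlinarith [le_abs_self D, abs_nonneg (w - v)]

theorem IsLocalGeo.isSegment {D : ℝ} {c : ℝ → M} (h : IsLocalGeo g D c) (p : ℝ) {a : ℝ}
    (ha : |a| ≤ 1) : IsSegment g (D * |a|) (fun s => c (p + a * s)) := fun s hs t ht => by
  have e : |(p + a * s) - (p + a * t)| = |a| * |s - t| := by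
    rw [← abs_mul]; congr 1; ring
  have h1 : |s - t| ≤ 1 := abs_le.2 ⟨by linarith [hs.1, ht.2], by linarith [hs.2, ht.1]⟩
  rw [h.dist (e ▸ mul_le_one₀ ha (abs_nonneg _) h1), e]
  ring

variable [FiniteDimensional ℝ E]

/-- A periodic curve which is locally a segment is a closed geodesic. -/
theorem IsLocalGeo.isClosedGeodesic {D : ℝ} {c : ℝ → M} (h : IsLocalGeo g D c) (hD : 0 < D)
    {τ : ℝ} (hτ : 0 < τ) (hper : ∀ t, c (t + τ) = c t) : IsClosedGeodesic g c := by
  refine ⟨isGeodesic_of_geoAt fun t => ?_, ⟨τ, hτ, hper⟩, 0, 1, fun he => ?_⟩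
  · have hg := (h.isSegment (t - 1 / 2) (a := 1) (by simp)).geoAt (t := 1 / 2)
      ⟨by norm_num, by norm_num⟩
    rw [show (1 / 2 : ℝ) = t + (1 / 2 - t) by ring] at hg
    exact hg.shift.congr (Eventually.of_forall fun s => congrArg c (by ring))
  · have := h 0 1 zero_le_one (by norm_num)
    rw [he, gdist_self] at this
    linarith

end

end Vale.Agent.P216.Sym
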