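import Vale.Agent.P216.Sym.Seg

/-!
Birkhoff shortening of closed polygons symmetric under an involutive isometry: either there is a
symmetric closed geodesic, or every family of paths between fixed points contracts.
-/

open Set Filter Metric Manifold Bundle
open scoped Topology ContDiff

namespace Vale.Agent.P216.Sym

open Vale.Agent.P216.Chord

noncomputable section

variable {E : Type*} [NormedAddCommGroup E] [NormedSpace ℝ E]
  {M : Type*} [TopologicalSpace M] [ChartedSpace E M] [IsManifold 𝓘(ℝ, E) ∞ M]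
  [T2Space M] [CompactSpace M] [PreconnectedSpace M]
  {g : ContMDiffRiemannianMetric 𝓘(ℝ, E) ∞ E (fun x : M => TangentSpace 𝓘(ℝ, E) x)}
  {ρ : ℝ} {σ : M → M} {n : ℕ}

variable (g) in
/-- The closed curve through the vertices of a polygon. -/
def curve (y : ZMod n → M) (v : ℝ) : M := seg g (y (⌊v⌋ : ℤ)) (y ((⌊v⌋ : ℤ) + 1)) (Int.fract v)

/-- A symmetric polygon with edges at most `r`. -/
def IsPoly (g : ContMDiffRiemannianMetric 𝓘(ℝ, E) ∞ E (fun x : M => TangentSpace 𝓘(ℝ, E) x))
    (σ : M → M) (r : ℝ) (y : ZMod n → M) : Prop :=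
  (∀ j, y (-j) = σ (y j)) ∧ ∀ j, gdist g (y j) (y (j + 1)) ≤ r

variable {y : ZMod n → M}

theorem curve_eq {j : ℤ} {v : ℝ} (hv : v ∈ Icc (j : ℝ) (j + 1)) :
    curve g y v = seg g (y (j : ZMod n)) (y ((j : ZMod n) + 1)) (v - j) := by
  rcases hv.2.eq_or_lt with h | h
  · subst h
    simp [curve, seg_zero, seg_one]
  · have hf : ⌊v⌋ = j := Int.floor_eq_iff.2 ⟨hv.1, h⟩
    simp only [curve, Int.fract, hf]

theorem curve_int (j : ℤ) : curve g y (j : ℝ) = y (j : ZMod n) := by
  rw [curve_eq (j := j) ⟨le_rfl, by linarith⟩, sub_self, seg_zero]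

theorem curve_periodic (t : ℝ) : curve g y (t + n) = curve g y t := by
  simp [curve, Int.floor_add_natCast, Int.fract_add_natCast]

variable (g σ) in
/-- Distance preserving involution fixing the polygon symmetry. -/
def IsInvol : Prop := (∀ x y, gdist g (σ x) (σ y) = gdist g x y) ∧ ∀ x, σ (σ x) = x

theorem curve_neg (hρ : UniqueRadius g ρ) (hσ : IsInvol g σ) {r : ℝ} (hr : r < ρ)
    (hy : IsPoly g σ r y) (v : ℝ) : curve g y (-v) = σ (curve g y v) := by
  have hv : v ∈ Icc ((⌊v⌋ : ℤ) : ℝ) (⌊v⌋ + 1) := ⟨Int.floor_le v, (Int.lt_floor_add_one v).le⟩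
  set j := ⌊v⌋
  have hv' : -v ∈ Icc ((-j - 1 : ℤ) : ℝ) ((-j - 1 : ℤ) + 1) := by
    push_cast; exact ⟨by linarith [hv.2], by linarith [hv.1]⟩
  rw [curve_eq hv', curve_eq hv]
  have e1 : ((-j - 1 : ℤ) : ZMod n) = -((j : ZMod n) + 1) := by push_cast; ring
  rw [e1, show -((j : ZMod n) + 1) + 1 = -(j : ZMod n) by ring, hy.1, hy.1,
    show -v - ((-j - 1 : ℤ) : ℝ) = 1 - (v - j) by push_cast; ring]
  have hd := (hy.2 (j : ZMod n)).trans_lt hr
  have hs : v - j ∈ Icc (0 : ℝ) 1 := ⟨by linarith [hv.1], by linarith [hv.2]⟩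
  rw [seg_symm hρ (by rwa [hσ.1]) hs, seg_map hρ hd hσ.1 hs]

theorem gdist_curve_le {r : ℝ} (hy : ∀ j, gdist g (y j) (y (j + 1)) ≤ r) {j : ℤ} {v : ℝ}
    (hv : v ∈ Icc (j : ℝ) (j + 1)) : gdist g (y (j : ZMod n)) (curve g y v) ≤ r := by
  have hs : v - j ∈ Icc (0 : ℝ) 1 := ⟨by linarith [hv.1], by linarith [hv.2]⟩
  rw [curve_eq hv, seg_left hs]
  exact (mul_le_of_le_one_left (gdist_nonneg _ _) hs.2).trans (hy _)

theorem continuousOn_curve (hρ : UniqueRadius g ρ) {Q : Type*} [TopologicalSpace Q]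
    (Y : Q → ZMod n → M) (hY : Continuous Y) (hd : ∀ q j, gdist g (Y q j) (Y q (j + 1)) < ρ) (N : ℕ) :
    ContinuousOn (fun z : Q × ℝ => curve g (Y z.1) z.2) (univ ×ˢ Icc (0 : ℝ) N) := by
  have hpiece : ∀ j : ℤ, ContinuousOn (fun z : Q × ℝ => curve g (Y z.1) z.2)
      (univ ×ˢ Icc (j : ℝ) (j + 1)) := by
    intro j
    refine ((continuousOn_seg hρ).comp (f := fun z : Q × ℝ =>
      ((Y z.1 (j : ZMod n), Y z.1 ((j : ZMod n) + 1)), z.2 - j)) ?_ ?_).congr
        fun z hz => curve_eq hz.2
    · exact (((((continuous_apply _).comp hY).comp continuous_fst).prodMk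
        (((continuous_apply _).comp hY).comp continuous_fst)).prodMk
          (continuous_snd.sub continuous_const)).continuousOn
    · intro z hz
      exact ⟨hd _ _, by linarith [hz.2.1], by linarith [hz.2.2]⟩
  induction N with
  | zero =>
    refine (hpiece 0).mono (prod_mono subset_rfl ?_)
    intro v hv
    simp only [Nat.cast_zero] at hv
    simp [hv.1, show v ≤ 1 by linarith [hv.2]]
  | succ N ih =>
    have h := hpiece N
    push_cast at h ⊢
    rw [show Icc (0 : ℝ) (N + 1) = Icc (0 : ℝ) N ∪ Icc (N : ℝ) (N + 1) from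
      (Icc_union_Icc_eq_Icc (Nat.cast_nonneg N) (by linarith)).symm, prod_union]
    exact ih.union_of_isClosed h (isClosed_univ.prod isClosed_Icc) (isClosed_univ.prod isClosed_Icc)

variable (g) in
/-- The midpoints of the edges. -/
def mids (y : ZMod n → M) (j : ZMod n) : M := seg g (y j) (y (j + 1)) (1 / 2)

variable (g) in
/-- One double midpoint step. -/
def shorten (y : ZMod n → M) (j : ZMod n) : M := seg g (mids g y (j - 1)) (mids g y j) (1 / 2)

theorem half_mem : (1 / 2 : ℝ) ∈ Icc (0 : ℝ) 1 := ⟨by norm_num, by norm_num⟩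

theorem mids_left (y : ZMod n → M) (j : ZMod n) :
    gdist g (y j) (mids g y j) = gdist g (y j) (y (j + 1)) / 2 := by
  rw [mids, seg_left half_mem]; ring

theorem mids_right (y : ZMod n → M) (j : ZMod n) :
    gdist g (mids g y j) (y (j + 1)) = gdist g (y j) (y (j + 1)) / 2 := by
  rw [mids, seg_right half_mem]; ring

theorem gdist_mids_le (y : ZMod n → M) (j : ZMod n) :
    gdist g (mids g y j) (mids g y (j + 1))
      ≤ (gdist g (y j) (y (j + 1)) + gdist g (y (j + 1)) (y (j + 1 + 1))) / 2 := by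
  linarith [gdist_triangle (g := g) (mids g y j) (y (j + 1)) (mids g y (j + 1)),
    mids_right (g := g) y j, mids_left (g := g) y (j + 1)]

theorem shorten_eq (y : ZMod n → M) (j : ZMod n) :
    shorten g y (j + 1) = mids g (mids g y) j := by
  simp [shorten, mids]

theorem gdist_shorten_self {r : ℝ} (hy : ∀ j, gdist g (y j) (y (j + 1)) ≤ r) (j : ZMod n) :
    gdist g (y j) (shorten g y j) ≤ r := by
  have h1 := gdist_mids_le (g := g) y (j - 1)
  rw [sub_add_cancel] at h1
  have h2 := mids_right (g := g) y (j - 1)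
  rw [sub_add_cancel] at h2
  have h3 : gdist g (mids g y (j - 1)) (shorten g y j) =
      gdist g (mids g y (j - 1)) (mids g y j) / 2 := by
    rw [shorten, seg_left half_mem]; ring
  have h4 := hy (j - 1)
  rw [sub_add_cancel] at h4
  linarith [gdist_triangle (g := g) (y j) (mids g y (j - 1)) (shorten g y j),
    gdist_comm (g := g) (y j) (mids g y (j - 1)), hy j]

theorem IsPoly.shorten (hρ : UniqueRadius g ρ) (hσ : IsInvol g σ) {r : ℝ} (hr : r < ρ)
    (hy : IsPoly g σ r y) : IsPoly g σ r (shorten g y) := by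
  have hm : ∀ j, gdist g (mids g y j) (mids g y (j + 1)) ≤ r := fun j =>
    (gdist_mids_le y j).trans (by linarith [hy.2 j, hy.2 (j + 1)])
  refine ⟨fun j => ?_, fun j => ?_⟩
  · have hmn : ∀ j, mids g y (-j - 1) = σ (mids g y j) := fun j => by
      have hd := (hy.2 j).trans_lt hr
      rw [mids, mids, sub_add_cancel, show -j - 1 = -(j + 1) by ring, hy.1, hy.1,
        ← seg_map hρ hd hσ.1 half_mem,
        ← seg_symm hρ (show gdist g (σ (y j)) (σ (y (j + 1))) < ρ by rwa [hσ.1]) half_mem]
      norm_num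
    have e1 : mids g y (-j) = σ (mids g y (j - 1)) := by
      rw [← hmn]; congr 1; ring
    show seg g (mids g y (-j - 1)) (mids g y (-j)) (1 / 2) =
      σ (seg g (mids g y (j - 1)) (mids g y j) (1 / 2))
    have hd : gdist g (mids g y (j - 1)) (mids g y j) < ρ := by
      have := hm (j - 1); rw [sub_add_cancel] at this; exact this.trans_lt hr
    rw [hmn, e1, ← seg_map hρ hd hσ.1 half_mem,
      ← seg_symm hρ (show gdist g (σ (mids g y (j - 1))) (σ (mids g y j)) < ρ by rwa [hσ.1]) half_mem]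
    norm_num
  · obtain ⟨i, rfl⟩ : ∃ i, j = i + 1 := ⟨j - 1, by ring⟩
    rw [shorten_eq, shorten_eq]
    exact (gdist_mids_le _ i).trans (by linarith [hm i, hm (i + 1)])

variable (g) in
/-- The energy of a polygon. -/
def energy [NeZero n] (y : ZMod n → M) : ℝ := ∑ j, gdist g (y j) (y (j + 1)) ^ 2

variable [NeZero n]

theorem energy_mids_le (y : ZMod n → M) :
    energy g (mids g y) ≤ energy g y ∧ (energy g y ≤ energy g (mids g y) →
      ∀ j, gdist g (y j) (y (j + 1)) = gdist g (y (j + 1)) (y (j + 1 + 1)) ∧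
        gdist g (mids g y j) (mids g y (j + 1)) = gdist g (y j) (y (j + 1))) := by
  set d : ZMod n → ℝ := fun j => gdist g (y j) (y (j + 1))
  set e : ZMod n → ℝ := fun j => gdist g (mids g y j) (mids g y (j + 1))
  have he : ∀ j, e j ^ 2 ≤ ((d j + d (j + 1)) / 2) ^ 2 := fun j =>
    pow_le_pow_left₀ (gdist_nonneg _ _) (gdist_mids_le y j) 2
  have hs : ∑ j, (d j ^ 2 + d (j + 1) ^ 2) / 2 = energy g y := by
    have hsh : ∑ x, d (x + 1) ^ 2 = ∑ x, d x ^ 2 :=
      Equiv.sum_comp (Equiv.addRight (1 : ZMod n)) fun j => d j ^ 2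
    rw [← Finset.sum_div, Finset.sum_add_distrib, hsh]
    simp only [energy, d]
    ring
  have hle : ∀ j, e j ^ 2 ≤ (d j ^ 2 + d (j + 1) ^ 2) / 2 := fun j =>
    (he j).trans (by nlinarith [sq_nonneg (d j - d (j + 1))])
  refine ⟨(Finset.sum_le_sum fun j _ => hle j).trans_eq hs, fun h j => ?_⟩
  have heq := (Finset.sum_eq_sum_iff_of_le fun j _ => hle j).1
    (le_antisymm (Finset.sum_le_sum fun j _ => hle j) (hs.trans_le h)) j (Finset.mem_univ j)
  have h1 : d j = d (j + 1) := by
    have : (d j - d (j + 1)) ^ 2 = 0 := le_antisymm (by nlinarith [he j]) (sq_nonneg _)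
    exact sub_eq_zero.1 (pow_eq_zero_iff two_ne_zero |>.1 this)
  refine ⟨h1, ?_⟩
  rw [← h1, add_self_div_two] at heq
  exact (pow_left_inj₀ (gdist_nonneg _ _) (gdist_nonneg _ _) two_ne_zero).1 (by linarith)

theorem energy_shorten (y : ZMod n → M) : energy g (shorten g y) = energy g (mids g (mids g y)) := by
  rw [energy, ← Equiv.sum_comp (Equiv.addRight (1 : ZMod n))]
  refine Finset.sum_congr rfl fun j _ => ?_
  simp only [Equiv.coe_addRight, shorten_eq]

theorem energy_shorten_le (y : ZMod n → M) : energy g (shorten g y) ≤ energy g y := by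
  rw [energy_shorten]
  exact (energy_mids_le _).1.trans (energy_mids_le y).1

/-- A polygon whose energy does not drop is a symmetric closed geodesic. -/
theorem exists_localGeo (hρ : UniqueRadius g ρ) (hσ : IsInvol g σ) {r : ℝ} (hr : r < ρ)
    (hy : IsPoly g σ r y) (he : energy g y ≤ energy g (shorten g y)) (hpos : 0 < energy g y) :
    ∃ D τ c, 0 < D ∧ 0 < τ ∧ IsLocalGeo g D c ∧ (∀ t, c (t + τ) = c t) ∧
      ∀ v, c (-v) = σ (c v) := by
  have h := (energy_mids_le y).2 (he.trans ((energy_shorten y).trans_le (energy_mids_le _).1))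
  have hconst : ∀ k : ℕ, gdist g (y (k : ZMod n)) (y ((k : ZMod n) + 1)) = gdist g (y 0) (y 1) := by
    intro k
    induction k with
    | zero => simp
    | succ k ih => rw [← ih, (h (k : ZMod n)).1]; push_cast; rfl
  set D := gdist g (y 0) (y 1)
  have hall : ∀ j : ZMod n, gdist g (y j) (y (j + 1)) = D := fun j => by
    have := hconst j.val
    rwa [ZMod.natCast_zmod_val] at this
  have hD : 0 < D := by
    refine lt_of_le_of_ne (gdist_nonneg _ _) fun h0 => ?_
    simp [energy, hall, ← h0] at hpos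
  have hd : ∀ j, gdist g (y j) (y (j + 1)) < ρ := fun j => (hy.2 j).trans_lt hr
  refine ⟨D / 2, 2 * n, fun v => curve g y (v / 2), half_pos hD,
    mul_pos two_pos (Nat.cast_pos.2 (NeZero.pos n)), ?_, fun t => ?_, fun v => ?_⟩
  · intro v w hvw hw
    set a := v / 2 with ha
    set b := w / 2 with hb
    show gdist g (curve g y a) (curve g y b) = _
    rw [show D / 2 * (w - v) = D * (b - a) by rw [ha, hb]; ring]
    have hab : a ≤ b := by rw [ha, hb]; linarith
    have hb' : b ≤ a + 1 / 2 := by rw [ha, hb]; linarith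
    set j := ⌊b⌋
    have hbj : b ∈ Icc (j : ℝ) (j + 1) := ⟨Int.floor_le b, (Int.lt_floor_add_one b).le⟩
    have hI : ∀ {u : ℝ} {i : ℤ}, u ∈ Icc (i : ℝ) (i + 1) → u - i ∈ Icc (0 : ℝ) 1 := fun h =>
      ⟨by linarith [h.1], by linarith [h.2]⟩
    by_cases hcase : (j : ℝ) ≤ a
    · have haj : a ∈ Icc (j : ℝ) (j + 1) := ⟨hcase, by linarith [hbj.2]⟩
      rw [curve_eq haj, curve_eq hbj, gdist_seg hρ (hd _) (hI haj) (hI hbj), hall,
        abs_sub_comm, abs_of_nonneg (by linarith)]
      ring
    push Not at hcase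
    have haj : a ∈ Icc ((j - 1 : ℤ) : ℝ) ((j - 1 : ℤ) + 1) := by
      push_cast; exact ⟨by linarith [hbj.1], by linarith⟩
    have e1 : ((j - 1 : ℤ) : ZMod n) + 1 = (j : ZMod n) := by push_cast; ring
    have hA : gdist g (curve g y a) (y (j : ZMod n)) = D * (j - a) := by
      rw [curve_eq haj, e1, seg_right (hI haj)]
      have := hall ((j - 1 : ℤ) : ZMod n)
      rw [e1] at this
      rw [this]; push_cast; ring
    have hB : gdist g (y (j : ZMod n)) (curve g y b) = D * (b - j) := by
      rw [curve_eq hbj, seg_left (hI hbj), hall]; ring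
    refine le_antisymm ?_ ?_
    · have := gdist_triangle (g := g) (curve g y a) (y (j : ZMod n)) (curve g y b)
      linarith
    have hm := (h ((j - 1 : ℤ) : ZMod n)).2
    rw [hall, e1] at hm
    have hA' : gdist g (mids g y ((j - 1 : ℤ) : ZMod n)) (curve g y a) ≤
        D * (a - (j - 1 / 2)) := by
      rw [curve_eq haj, mids, gdist_seg hρ (hd _) half_mem (hI haj), hall]
      refine mul_le_mul_of_nonneg_left (abs_le.2 ?_) hD.le
      push_cast
      constructor <;> linarith [hbj.1]
    have hB' : gdist g (curve g y b) (mids g y (j : ZMod n)) ≤ D * (j + 1 / 2 - b) := by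
      rw [curve_eq hbj, mids, gdist_seg hρ (hd _) (hI hbj) half_mem, hall]
      refine mul_le_mul_of_nonneg_left (abs_le.2 ?_) hD.le
      constructor <;> linarith
    linarith [gdist_triangle (g := g) (mids g y ((j - 1 : ℤ) : ZMod n)) (curve g y a)
      (mids g y (j : ZMod n)), gdist_triangle (g := g) (curve g y a) (curve g y b)
        (mids g y (j : ZMod n))]
  · show curve g y ((t + 2 * n) / 2) = curve g y (t / 2)
    rw [show (t + 2 * n) / 2 = t / 2 + n by ring, curve_periodic]
  · show curve g y (-v / 2) = _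
    rw [neg_div, curve_neg hρ hσ hr hy]

omit [NeZero n] in
theorem isClosed_isPoly (hσ : Continuous σ) (r : ℝ) :
    IsClosed {y : ZMod n → M | IsPoly g σ r y} := by
  have h1 : IsClosed {y : ZMod n → M | ∀ j, y (-j) = σ (y j)} := by
    have := isClosed_iInter fun j : ZMod n =>
      isClosed_eq (continuous_apply (A := fun _ => M) (-j)) (hσ.comp (continuous_apply j))
    exact (congrArg IsClosed (Set.ext fun y => by simp [mem_iInter])).mpr this
  have h2 : IsClosed {y : ZMod n → M | ∀ j, gdist g (y j) (y (j + 1)) ≤ r} := by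
    have := isClosed_iInter fun j : ZMod n =>
      isClosed_le ((continuous_gdist g).comp ((continuous_apply (A := fun _ => M) j).prodMk
        (continuous_apply (j + 1)))) (continuous_const (y := r))
    exact (congrArg IsClosed (Set.ext fun y => by simp [mem_iInter])).mpr this
  exact h1.inter h2

omit [NeZero n] in
theorem continuousOn_shorten (hρ : UniqueRadius g ρ) {r : ℝ} (hr : r < ρ) :
    ContinuousOn (fun y : ZMod n → M => shorten g y) {y | IsPoly g σ r y} := by
  refine continuousOn_pi.2 fun j => ?_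
  have hmid : ∀ i, ContinuousOn (fun y : ZMod n → M => mids g y i) {y | IsPoly g σ r y} :=
    fun i => (continuousOn_seg hρ).comp (f := fun y : ZMod n → M => ((y i, y (i + 1)), (1 / 2 : ℝ)))
      (((continuous_apply i).prodMk (continuous_apply (i + 1))).prodMk continuous_const).continuousOn
      fun y hy => ⟨(hy.2 i).trans_lt hr, half_mem⟩
  refine (continuousOn_seg hρ).comp
    (f := fun y : ZMod n → M => ((mids g y (j - 1), mids g y j), (1 / 2 : ℝ)))
    (((hmid _).prodMk (hmid _)).prodMk continuousOn_const) fun y hy => ⟨?_, half_mem⟩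
  show gdist g (mids g y (j - 1)) (mids g y j) < ρ
  have h := gdist_mids_le (g := g) y (j - 1)
  rw [sub_add_cancel] at h
  have h1 := hy.2 (j - 1)
  rw [sub_add_cancel] at h1
  linarith [hy.2 j]

/-- If no polygon keeps its energy, iterated shortening makes all polygons uniformly short. -/
theorem exists_iterate_short (hρ : UniqueRadius g ρ) (hσ : IsInvol g σ) (hσc : Continuous σ) {r : ℝ}
    (hr : r < ρ) (hno : ∀ y : ZMod n → M, IsPoly g σ r y → 0 < energy g y →
      energy g (shorten g y) < energy g y) {ε : ℝ} (hε : 0 < ε) :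
    ∃ N : ℕ, ∀ y : ZMod n → M, IsPoly g σ r y → energy g ((shorten g)^[N] y) < ε := by
  have hEc : Continuous fun y : ZMod n → M => energy g y := continuous_finsetSum _ fun j _ =>
    (Continuous.comp (g := fun q : M × M => gdist g q.1 q.2) (continuous_gdist g)
      (f := fun y : ZMod n → M => (y j, y (j + 1)))
      ((continuous_apply j).prodMk (continuous_apply (j + 1)))).pow 2
  obtain ⟨B, hB⟩ := isCompact_univ.exists_bound_of_continuousOn hEc.continuousOn
  set Yε : Set (ZMod n → M) := {y | IsPoly g σ r y} ∩ {y | ε ≤ energy g y}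
  have hcl : IsClosed Yε := (isClosed_isPoly hσc r).inter (isClosed_le continuous_const hEc)
  rcases Yε.eq_empty_or_nonempty with h | h
  · exact ⟨0, fun y hy => not_le.1 fun he => Set.eq_empty_iff_forall_notMem.1 h y ⟨hy, he⟩⟩
  obtain ⟨y₀, hy₀, hmin⟩ := hcl.isCompact.exists_isMinOn h
    (hEc.continuousOn.sub (hEc.comp_continuousOn ((continuousOn_shorten hρ hr).mono inter_subset_left)))
  set δ := energy g y₀ - energy g (shorten g y₀)
  have hδ : 0 < δ := sub_pos.2 (hno y₀ hy₀.1 (hε.trans_le hy₀.2))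
  obtain ⟨N, hN⟩ := exists_nat_gt (B / δ)
  refine ⟨N, fun y hy => ?_⟩
  have key : ∀ k : ℕ, IsPoly g σ r ((shorten g)^[k] y) ∧
      (energy g ((shorten g)^[k] y) < ε ∨
        energy g ((shorten g)^[k] y) ≤ energy g y - k * δ) := by
    intro k
    induction k with
    | zero => exact ⟨hy, Or.inr (by simp)⟩
    | succ k ih =>
      rw [Function.iterate_succ_apply']
      refine ⟨ih.1.shorten hρ hσ hr, ?_⟩
      set z := (shorten g)^[k] y
      by_cases hz : energy g z < ε
      · exact Or.inl ((energy_shorten_le z).trans_lt hz)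
      · have h1 : δ ≤ energy g z - energy g (shorten g z) := hmin (show z ∈ Yε from ⟨ih.1, not_lt.1 hz⟩)
        right
        push_cast
        linarith [ih.2.resolve_left hz]
  refine (key N).2.resolve_right fun h' => ?_
  have h2 : B < N * δ := (div_lt_iff₀ hδ).1 hN
  have h3 := hB y (mem_univ _)
  rw [Real.norm_eq_abs] at h3
  have h4 : 0 ≤ energy g ((shorten g)^[N] y) := Finset.sum_nonneg fun j _ => sq_nonneg _
  linarith [le_abs_self (energy g y)]

variable [FiniteDimensional ℝ E]

/-- Paths with both ends fixed by `σ`. -/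
def FixedEnds (σ : M → M) {Q : Type*} [TopologicalSpace Q] (f : C(Q × unitInterval, M)) : Prop :=
  ∀ q, σ (f (q, 0)) = f (q, 0) ∧ σ (f (q, 1)) = f (q, 1)

omit [NeZero n] [FiniteDimensional ℝ E] in
theorem homotopicWith_of_near (hρ : UniqueRadius g ρ) (hσ : IsInvol g σ) {Q : Type*}
    [TopologicalSpace Q] {f f' : C(Q × unitInterval, M)} (hd : ∀ x, gdist g (f x) (f' x) < ρ)
    (hf : FixedEnds σ f) (hf' : FixedEnds σ f') : f.HomotopicWith f' (FixedEnds σ) := by
  have hc : Continuous fun z : unitInterval × (Q × unitInterval) => seg g (f z.2) (f' z.2) (z.1 : ℝ) :=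
    (continuousOn_seg hρ).comp_continuous
      (((f.continuous.comp continuous_snd).prodMk (f'.continuous.comp continuous_snd)).prodMk
        (continuous_subtype_val.comp continuous_fst)) fun z => ⟨hd z.2, z.1.2⟩
  have hfix : ∀ (a b : M) (t : unitInterval), gdist g a b < ρ → σ a = a → σ b = b →
      σ (seg g a b t) = seg g a b t := fun a b t h ha hb => by
    rw [← seg_map hρ h hσ.1 t.2, ha, hb]
  refine ⟨⟨⟨⟨fun z => seg g (f z.2) (f' z.2) (z.1 : ℝ), hc⟩, fun x => ?_, fun x => ?_⟩,
    fun t q => ⟨hfix _ _ t (hd _) (hf q).1 (hf' q).1, hfix _ _ t (hd _) (hf q).2 (hf' q).2⟩⟩⟩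
  · exact seg_zero _ _
  · exact seg_one _ _

end

end Vale.Agent.P216.Sym
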