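import Vale.Agent.P216.Chord.Main

/-!
Short segments with common ends coincide, and short segments with a common first half coincide.
-/

open Set Filter Metric Manifold Bundle
open scoped Topology ContDiff NNReal

namespace Vale.Agent.P216.Sym

open Vale.Agent.P216.Chord

set_option maxSynthPendingDepth 3

noncomputable section

variable {E : Type*} [NormedAddCommGroup E] [NormedSpace ℝ E] [FiniteDimensional ℝ E]

/-- The force depends Lipschitz on the point and quadratically on the velocity. -/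
theorem force_sub_le {G : E → E →L[ℝ] E →L[ℝ] ℝ} {y y' u u' : E} {LB b q δ : ℝ} (hb : 0 ≤ b)
    (hLB : 0 ≤ LB) (hq : 0 ≤ q) (hδ : 0 ≤ δ) (hy : ‖fderiv ℝ G y - fderiv ℝ G y'‖ ≤ LB * δ)
    (hy' : ‖fderiv ℝ G y'‖ ≤ b) (hu : ‖u‖ ≤ q) (hu' : ‖u'‖ ≤ q) (hd : ‖u - u'‖ ≤ δ) :
    ‖force G y u - force G y' u'‖ ≤ (LB * q * q + 2 * b * q) / 2 * δ := by
  refine ContinuousLinearMap.opNorm_le_bound _ (by positivity) fun v => ?_
  rw [sub_apply, force_apply, force_apply, Real.norm_eq_abs, ← mul_sub]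
  set B := fderiv ℝ G y v with hBd
  set B' := fderiv ℝ G y' v with hBd'
  have hB : ‖B'‖ ≤ b * ‖v‖ :=
    ((fderiv ℝ G y').le_opNorm v).trans (mul_le_mul_of_nonneg_right hy' (norm_nonneg v))
  have hBB : ‖B - B'‖ ≤ LB * δ * ‖v‖ :=
    ((fderiv ℝ G y - fderiv ℝ G y').le_opNorm v).trans
      (mul_le_mul_of_nonneg_right hy (norm_nonneg v))
  have e1 : B u u - B' u' u' = (B - B') u u + B' (u - u') u + B' u' (u - u') := by
    simp only [sub_apply, map_sub]; ring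
  have k1 : |(B - B') u u| ≤ LB * δ * ‖v‖ * q * q := norm_apply₂_le _ _ _ hBB hu hu
  have k2 : |B' (u - u') u| ≤ b * ‖v‖ * δ * q := norm_apply₂_le _ _ _ hB hd hu
  have k3 : |B' u' (u - u')| ≤ b * ‖v‖ * q * δ := norm_apply₂_le _ _ _ hB hu' hd
  rw [e1, abs_mul, abs_of_pos (by norm_num : (0 : ℝ) < 1 / 2)]
  calc _ ≤ 1 / 2 * (LB * δ * ‖v‖ * q * q + b * ‖v‖ * δ * q + b * ‖v‖ * q * δ) :=
        mul_le_mul_of_nonneg_left ((abs_add_three _ _ _).trans
          (add_le_add (add_le_add k1 k2) k3)) (by norm_num)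
    _ = _ := by ring

/-- Two solutions in a set with bounded data, the same start, and either the same end or the same
initial momentum, coincide on the unit interval, if their momenta are small. -/
theorem solutions_eq {G : E → E →L[ℝ] E →L[ℝ] ℝ} {S : Set E} {A : E → (E →L[ℝ] ℝ) →L[ℝ] E}
    (hA : ∀ y Q, vel G y Q = A y Q) (hGA : ∀ y ∈ S, ∀ Q, G y (A y Q) = Q) {LA LB a b γ c m : ℝ}
    (hLA0 : 0 ≤ LA) (hLB0 : 0 ≤ LB) (ha : 0 < a) (hb : 0 < b) (hγ : 0 < γ)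
    (hc : c = LB * a ^ 3 + 2 * b * a ^ 2)
    (hLA : ∀ y ∈ S, ∀ y' ∈ S, ‖A y - A y'‖ ≤ LA * ‖y - y'‖)
    (hLB : ∀ y ∈ S, ∀ y' ∈ S, ‖fderiv ℝ G y - fderiv ℝ G y'‖ ≤ LB * ‖y - y'‖)
    (hab : ∀ y ∈ S, ‖A y‖ ≤ a ∧ ‖fderiv ℝ G y‖ ≤ b ∧ ‖G y‖ ≤ γ)
    (hm0 : 0 ≤ m) (hm2 : m ≤ 1) (hm3 : LA * m ≤ 1 / 2)
    (hm4 : (γ * (3 * LA * a + a * c) + c) * m ≤ 1 / 2)
    {x x' : ℝ → E} {P P' : ℝ → E →L[ℝ] ℝ}
    (hmem : ∀ t ∈ Icc (0 : ℝ) 1, x t ∈ S ∧ x' t ∈ S ∧ ‖P t‖ ≤ m ∧ ‖P' t‖ ≤ m)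
    (hd : ∀ t ∈ Icc (0 : ℝ) 1,
      HasDerivWithinAt (fun s => (x s, P s)) (field G (x t, P t)) (Icc 0 1) t)
    (hd' : ∀ t ∈ Icc (0 : ℝ) 1,
      HasDerivWithinAt (fun s => (x' s, P' s)) (field G (x' t, P' t)) (Icc 0 1) t)
    (h00 : x 0 = x' 0) (hend : x 1 = x' 1 ∨ P 0 = P' 0) :
    ∀ t ∈ Icc (0 : ℝ) 1, x t = x' t := by
  have hc0 : 0 ≤ c := by rw [hc]; positivity
  have hx : ∀ t ∈ Icc (0 : ℝ) 1, HasDerivWithinAt x (A (x t) (P t)) (Icc 0 1) t := fun t ht => by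
    rw [← hA]; exact (hd t ht).fst
  have hx' : ∀ t ∈ Icc (0 : ℝ) 1, HasDerivWithinAt x' (A (x' t) (P' t)) (Icc 0 1) t := fun t ht => by
    rw [← hA]; exact (hd' t ht).fst
  have hP : ∀ t ∈ Icc (0 : ℝ) 1,
      HasDerivWithinAt P (force G (x t) (A (x t) (P t))) (Icc 0 1) t := fun t ht => by
    rw [← hA]; exact (hd t ht).snd
  have hP' : ∀ t ∈ Icc (0 : ℝ) 1,
      HasDerivWithinAt P' (force G (x' t) (A (x' t) (P' t))) (Icc 0 1) t := fun t ht => by
    rw [← hA]; exact (hd' t ht).snd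
  set z : ℝ → E := fun t => x t - x' t
  set Δ : ℝ → E →L[ℝ] ℝ := fun t => P t - P' t
  have hzc : ContinuousOn z (Icc 0 1) := fun t ht =>
    ((hx t ht).sub (hx' t ht)).continuousWithinAt
  have hΔc : ContinuousOn Δ (Icc 0 1) := fun t ht =>
    ((hP t ht).sub (hP' t ht)).continuousWithinAt
  obtain ⟨sz, hsz, hZ⟩ := isCompact_Icc.exists_isMaxOn (nonempty_Icc.2 zero_le_one) hzc.norm
  obtain ⟨sd, hsd, hD⟩ := isCompact_Icc.exists_isMaxOn (nonempty_Icc.2 zero_le_one) hΔc.norm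
  set Z := ‖z sz‖
  set D := ‖Δ sd‖
  have hZ' : ∀ t ∈ Icc (0 : ℝ) 1, ‖x t - x' t‖ ≤ Z := fun t ht => hZ ht
  have hD' : ∀ t ∈ Icc (0 : ℝ) 1, ‖P t - P' t‖ ≤ D := fun t ht => hD ht
  have hD0 : 0 ≤ D := norm_nonneg _
  have hw : ∀ t ∈ Icc (0 : ℝ) 1,
      ‖A (x t) (P t) - A (x' t) (P' t)‖ ≤ LA * Z * m + a * D := by
    intro t ht
    obtain ⟨h1, h2, h3, h4⟩ := hmem t ht
    rw [show A (x t) (P t) - A (x' t) (P' t)
      = (A (x t) - A (x' t)) (P' t) + A (x t) (P t - P' t) by simp]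
    refine (norm_add_le _ _).trans (add_le_add ?_ ?_)
    · refine (ContinuousLinearMap.le_opNorm _ _).trans (mul_le_mul ?_ h4 (norm_nonneg _) ?_)
      · exact (hLA _ h1 _ h2).trans
          (mul_le_mul_of_nonneg_left (hZ' t ht) hLA0)
      · positivity
    · exact (ContinuousLinearMap.le_opNorm _ _).trans
        (mul_le_mul (hab _ h1).1 (hD' t ht) (norm_nonneg _) ha.le)
  have hZD : Z ≤ 2 * a * D := by
    have h := norm_image_sub_le_of_norm_deriv_le_segment' (f := z)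
      (fun t ht => (hx t ht).sub (hx' t ht)) (fun t ht => hw t (Ico_subset_Icc_self ht)) sz hsz
    simp only [z, h00, sub_self, sub_zero] at h
    have hnn : 0 ≤ LA * Z * m + a * D := by positivity
    have : Z ≤ LA * Z * m + a * D := h.trans (by nlinarith [hsz.2, hsz.1])
    nlinarith [norm_nonneg (z sz)]
  have hu : ∀ t ∈ Icc (0 : ℝ) 1, ‖A (x t) (P t)‖ ≤ a * m ∧ ‖A (x' t) (P' t)‖ ≤ a * m :=
    fun t ht => by
      obtain ⟨h1, h2, h3, h4⟩ := hmem t ht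
      exact ⟨(ContinuousLinearMap.le_opNorm _ _).trans
        (mul_le_mul (hab _ h1).1 h3 (norm_nonneg _) ha.le),
        (ContinuousLinearMap.le_opNorm _ _).trans
        (mul_le_mul (hab _ h2).1 h4 (norm_nonneg _) ha.le)⟩
  have hforce : ∀ t ∈ Icc (0 : ℝ) 1,
      ‖force G (x t) (A (x t) (P t)) - force G (x' t) (A (x' t) (P' t))‖ ≤ c * m * D := by
    intro t ht
    obtain ⟨h1, h2, -, -⟩ := hmem t ht
    obtain ⟨hu1, hu2⟩ := hu t ht
    set u := A (x t) (P t)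
    set u' := A (x' t) (P' t)
    have hsub : ‖u - u'‖ ≤ 2 * a * D := by
      refine (hw t ht).trans ?_
      nlinarith [mul_le_mul hm3 hZD (norm_nonneg _) (by norm_num : (0 : ℝ) ≤ 1 / 2)]
    have hy : ‖fderiv ℝ G (x t) - fderiv ℝ G (x' t)‖ ≤ LB * (2 * a * D) :=
      (hLB _ h1 _ h2).trans
        (mul_le_mul_of_nonneg_left ((hZ' t ht).trans hZD) hLB0)
    have hb2 : ‖fderiv ℝ G (x' t)‖ ≤ b := (hab _ h2).2.1
    have hδ : (0 : ℝ) ≤ 2 * a * D := mul_nonneg (mul_nonneg zero_le_two ha.le) hD0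
    have key := force_sub_le (G := G) (y := x t) (y' := x' t) (u := u) (u' := u') (LB := LB)
      (b := b) (q := a * m) (δ := 2 * a * D) hb.le hLB0 (mul_nonneg ha.le hm0) hδ hy hb2 hu1 hu2 hsub
    refine key.trans ?_
    have k5 : LB * a ^ 3 * m * (m * D) ≤ LB * a ^ 3 * m * D :=
      mul_le_mul_of_nonneg_left (mul_le_of_le_one_left hD0 hm2) (by positivity)
    calc _ = LB * a ^ 3 * m * (m * D) + 2 * b * a ^ 2 * m * D := by ring
      _ ≤ LB * a ^ 3 * m * D + 2 * b * a ^ 2 * m * D := by linarith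
      _ = c * m * D := by rw [hc]; ring
  have hcm : 0 ≤ c * m * D := by positivity
  have hΔ0 : ∀ t ∈ Icc (0 : ℝ) 1, ‖Δ t - Δ 0‖ ≤ c * m * D := fun t ht =>
    (norm_image_sub_le_of_norm_deriv_le_segment' (f := Δ) (fun t ht => (hP t ht).sub (hP' t ht))
      (fun t ht => hforce t (Ico_subset_Icc_self ht)) t ht).trans
      (by nlinarith [ht.1, ht.2])
  have hDle : D ≤ ‖Δ 0‖ + c * m * D :=
    (norm_le_norm_add_norm_sub' (Δ sd) (Δ 0)).trans (by linarith [hΔ0 sd hsd])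
  have hDz : D = 0 := by
    have hΔb : ‖Δ 0‖ ≤ γ * ((3 * LA * a + a * c) * m * D) := by
      rcases hend with h11 | h11
      swap
      · simp only [Δ, h11, sub_self, norm_zero]; positivity
      have h0I : (0 : ℝ) ∈ Icc (0 : ℝ) 1 := ⟨le_rfl, zero_le_one⟩
      have hx0 : ∀ t ∈ Icc (0 : ℝ) 1, ‖x t - x 0‖ ≤ a * m := fun t ht =>
        (norm_image_sub_le_of_norm_deriv_le_segment' (f := x) hx
          (fun t ht => (hu t (Ico_subset_Icc_self ht)).1) t ht).trans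
          (by nlinarith [ht.1, ht.2, mul_nonneg ha.le hm0])
      set w₀ := A (x 0) (Δ 0)
      have hf : ∀ t ∈ Icc (0 : ℝ) 1, HasDerivWithinAt (fun s => z s - s • w₀)
          (A (x t) (P t) - A (x' t) (P' t) - w₀) (Icc 0 1) t := fun t ht => by
        have h := ((hx t ht).sub (hx' t ht)).sub ((hasDerivWithinAt_id t (Icc 0 1)).smul_const w₀)
        simp only [one_smul, id_eq] at h
        exact h
      have hfb : ∀ t ∈ Ico (0 : ℝ) 1,
          ‖A (x t) (P t) - A (x' t) (P' t) - w₀‖ ≤ (3 * LA * a + a * c) * m * D := by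
        intro t ht'
        have ht := Ico_subset_Icc_self ht'
        obtain ⟨h1, h2, h3, h4⟩ := hmem t ht
        rw [show A (x t) (P t) - A (x' t) (P' t) - w₀ = (A (x t) - A (x' t)) (P' t)
            + (A (x t) - A (x 0)) (Δ t) + A (x 0) (Δ t - Δ 0) by simp [w₀, Δ]; abel]
        refine norm_add₃_le.trans ?_
        have e1 : ‖(A (x t) - A (x' t)) (P' t)‖ ≤ LA * (2 * a * D) * m :=
          (ContinuousLinearMap.le_opNorm _ _).trans (mul_le_mul
            ((hLA _ h1 _ h2).trans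
              (mul_le_mul_of_nonneg_left ((hZ' t ht).trans hZD) hLA0)) h4 (norm_nonneg _)
            (by positivity))
        have e2 : ‖(A (x t) - A (x 0)) (Δ t)‖ ≤ LA * (a * m) * D :=
          (ContinuousLinearMap.le_opNorm _ _).trans (mul_le_mul
            ((hLA _ h1 _ (hmem 0 h0I).1).trans
              (mul_le_mul_of_nonneg_left (hx0 t ht) hLA0)) (hD' t ht) (norm_nonneg _)
            (by positivity))
        have e3 : ‖A (x 0) (Δ t - Δ 0)‖ ≤ a * (c * m * D) :=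
          (ContinuousLinearMap.le_opNorm _ _).trans
            (mul_le_mul (hab _ (hmem 0 h0I).1).1 (hΔ0 t ht) (norm_nonneg _) ha.le)
        calc _ ≤ LA * (2 * a * D) * m + LA * (a * m) * D + a * (c * m * D) := by linarith
          _ = _ := by ring
      have h1 := norm_image_sub_le_of_norm_deriv_le_segment' hf hfb 1 ⟨zero_le_one, le_rfl⟩
      simp only [z, h00, h11, sub_self, one_smul, zero_smul, zero_sub, sub_zero, norm_neg,
        mul_one] at h1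
      have hG0 : G (x 0) w₀ = Δ 0 := hGA _ (hmem 0 h0I).1 (Δ 0)
      calc ‖Δ 0‖ = ‖G (x 0) w₀‖ := by rw [hG0]
        _ ≤ γ * ‖w₀‖ := ((G (x 0)).le_opNorm w₀).trans
            (mul_le_mul_of_nonneg_right (hab _ (hmem 0 h0I).1).2.2 (norm_nonneg _))
        _ ≤ _ := by gcongr
    have hle : D ≤ (γ * (3 * LA * a + a * c) + c) * m * D := by
      calc D ≤ γ * ((3 * LA * a + a * c) * m * D) + c * m * D := by linarith
        _ = _ := by ring
    have := mul_le_mul_of_nonneg_right hm4 hD0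
    linarith
  intro t ht
  have : Z ≤ 0 := by rw [hDz, mul_zero] at hZD; exact hZD
  exact sub_eq_zero.1 (norm_eq_zero.1 (le_antisymm ((hZ' t ht).trans this) (norm_nonneg _)))

/-- Near a point, two solutions with small momenta, the same start and either the same end or the
same initial momentum coincide on the unit interval. -/
theorem solutions_unique {U : Set E} {G : E → E →L[ℝ] E →L[ℝ] ℝ} (hG : IsMetricOn U G) {y₀ : E}
    (hy₀ : y₀ ∈ U) : ∃ r > 0, ∃ μ > 0, closedBall y₀ r ⊆ U ∧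
    ∀ (x x' : ℝ → E) (P P' : ℝ → E →L[ℝ] ℝ),
      (∀ t ∈ Icc (0 : ℝ) 1, x t ∈ closedBall y₀ r ∧ x' t ∈ closedBall y₀ r ∧
        ‖P t‖ ≤ μ ∧ ‖P' t‖ ≤ μ) →
      (∀ t ∈ Icc (0 : ℝ) 1,
        HasDerivWithinAt (fun s => (x s, P s)) (field G (x t, P t)) (Icc 0 1) t) →
      (∀ t ∈ Icc (0 : ℝ) 1,
        HasDerivWithinAt (fun s => (x' s, P' s)) (field G (x' t, P' t)) (Icc 0 1) t) →
      x 0 = x' 0 → (x 1 = x' 1 ∨ P 0 = P' 0) → ∀ t ∈ Icc (0 : ℝ) 1, x t = x' t := by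
  set A : E → (E →L[ℝ] ℝ) →L[ℝ] E := fun y => ContinuousLinearMap.inverse (G y) with hA
  have hGat : ContDiffAt ℝ ∞ G y₀ := hG.smooth.contDiffAt (hG.isOpen.mem_nhds hy₀)
  have hAat : ContDiffAt ℝ ∞ A y₀ := by
    obtain ⟨e, he⟩ := hG.exists_equiv hy₀
    have hi : ContDiffAt ℝ ∞ ContinuousLinearMap.inverse (G y₀) := by
      rw [← he]; exact contDiffAt_map_inverse e
    exact hi.comp y₀ hGat
  obtain ⟨LA, T₁, hT₁, hLA⟩ := (hAat.of_le (m := 1) (by norm_cast)).exists_lipschitzOnWith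
  obtain ⟨LB, T₂, hT₂, hLB⟩ := (hGat.fderiv_right (m := 1) (by norm_cast)).exists_lipschitzOnWith
  set a : ℝ := ‖A y₀‖ + 1
  set b : ℝ := ‖fderiv ℝ G y₀‖ + 1
  set γ : ℝ := ‖G y₀‖ + 1
  have hev : ∀ᶠ y in 𝓝 y₀, y ∈ U ∧ y ∈ T₁ ∧ y ∈ T₂ ∧ ‖A y‖ ≤ a ∧ ‖fderiv ℝ G y‖ ≤ b ∧
      ‖G y‖ ≤ γ := by
    filter_upwards [hG.isOpen.mem_nhds hy₀, hT₁, hT₂,
      hAat.continuousAt.norm.eventually_le_const (lt_add_one ‖A y₀‖),
      (hGat.continuousAt_fderiv (by simp)).norm.eventually_le_const (lt_add_one ‖fderiv ℝ G y₀‖),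
      hGat.continuousAt.norm.eventually_le_const (lt_add_one ‖G y₀‖)] with y h1 h2 h3 h4 h5 h6
    exact ⟨h1, h2, h3, h4, h5, h6⟩
  obtain ⟨r, hr, hball⟩ := nhds_basis_closedBall.mem_iff.1 hev
  have ha : 0 < a := by positivity
  have hb : 0 < b := by positivity
  have hγ : 0 < γ := by positivity
  set c : ℝ := LB * a ^ 3 + 2 * b * a ^ 2 with hc
  set k : ℝ := γ * (3 * LA * a + a * c) + c with hk
  have hk0 : 0 ≤ k := by positivity
  set c' : ℝ := k + LA + 1 with hc'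
  refine ⟨r, hr, 1 / (2 * c'), by positivity, fun y hy => (hball hy).1, ?_⟩
  intro x x' P P' hmem hd hd' h00 hend
  refine solutions_eq (fun _ _ => rfl) (fun y hy Q => hG.apply_vel (hball hy).1 Q) LA.coe_nonneg LB.coe_nonneg ha hb hγ
    hc (fun y hy y' hy' => lipschitzOnWith_iff_norm_sub_le.1 hLA (hball hy).2.1 (hball hy').2.1)
    (fun y hy y' hy' => lipschitzOnWith_iff_norm_sub_le.1 hLB (hball hy).2.2.1 (hball hy').2.2.1)
    (fun y hy => (hball hy).2.2.2) (by positivity) ?_ ?_ ?_ hmem hd hd' h00 hend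
  · rw [div_le_one (by positivity)]
    linarith [LA.2]
  · rw [mul_one_div, div_le_div_iff₀ (by positivity) two_pos, hc']
    linarith [LA.coe_nonneg]
  · show k * (1 / (2 * c')) ≤ 1 / 2
    rw [mul_one_div, div_le_div_iff₀ (by positivity) two_pos, hc']
    linarith [LA.2]

variable {M : Type*} [TopologicalSpace M] [ChartedSpace E M] [IsManifold 𝓘(ℝ, E) ∞ M]
  [T2Space M] [CompactSpace M] [PreconnectedSpace M]
  {g : ContMDiffRiemannianMetric 𝓘(ℝ, E) ∞ E (fun x : M => TangentSpace 𝓘(ℝ, E) x)}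

variable (g) in
/-- Segments shorter than a uniform length are determined by their ends, and also by their first
half. -/
theorem exists_unique_radius : ∃ ρ > 0, ∀ (L : ℝ) (c c' : ℝ → M), IsSegment g L c →
    IsSegment g L c' → L < ρ → c 0 = c' 0 →
    (c 1 = c' 1 ∨ ∀ s ∈ Icc (0 : ℝ) (1 / 2), c s = c' s) →
    ∀ s ∈ Icc (0 : ℝ) 1, c s = c' s := by
  letI := gMetricSpace g
  rcases isEmpty_or_nonempty M with hM | hM
  · exact ⟨1, one_pos, fun L c => (hM.false (c 0)).elim⟩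
  suffices h : ∀ p : M, ∃ W ∈ 𝓝 p, ∃ ρ > 0, ∀ (L : ℝ) (c c' : ℝ → M), IsSegment g L c →
      IsSegment g L c' → L < ρ → c 0 ∈ W → c 0 = c' 0 →
      (c 1 = c' 1 ∨ ∀ s ∈ Icc (0 : ℝ) (1 / 2), c s = c' s) →
      ∀ s ∈ Icc (0 : ℝ) 1, c s = c' s by
    choose W hW ρ hρ hu using h
    obtain ⟨t, ht⟩ := isCompact_univ.elim_nhds_subcover W fun p _ => hW p
    have hne : t.Nonempty := by
      obtain ⟨p⟩ := hM
      obtain ⟨q, hq, -⟩ := mem_iUnion₂.1 (ht.2 (mem_univ p))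
      exact ⟨q, hq⟩
    refine ⟨t.inf' hne ρ, (Finset.lt_inf'_iff hne).2 fun p _ => hρ p, ?_⟩
    intro L c c' hc hc' hL h0 he
    obtain ⟨p, hp, hcp⟩ := mem_iUnion₂.1 (ht.2 (mem_univ (c 0)))
    exact hu p L c c' hc hc' (lt_of_lt_of_le hL (Finset.inf'_le _ hp)) hcp h0 he
  intro p
  set C := Par.chart (E := E) p
  have hp : p ∈ C.W := mem_extChartAt_source p
  set y₀ := C.φ p
  have hy₀ : y₀ ∈ C.U := C.mapsφ hp
  have hG := C.isMetricOn (g := g)
  obtain ⟨r₀, hr₀, μ, hμ, hrU, hsol⟩ := solutions_unique hG hy₀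
  obtain ⟨r₁, hr₁, hr₁U, hmin⟩ := C.isMin (g := g) hy₀
  obtain ⟨r₂, hr₂, hr₂U, hlow⟩ := C.lower (g := g) hy₀ (ε := 1 / 2) (by norm_num) (by norm_num)
  obtain ⟨k, hk, hkv⟩ := hG.le_nrm hy₀
  obtain ⟨Gb, hGb⟩ : ∃ Gb, ∀ y ∈ closedBall y₀ r₀, ‖C.pull g y‖ ≤ Gb :=
    (isCompact_closedBall y₀ r₀).exists_bound_of_continuousOn (hG.smooth.continuousOn.mono hrU)
  set r := min r₀ (min r₁ r₂)
  have hr : 0 < r := by positivity
  have hn : C.W ∩ C.φ ⁻¹' ball y₀ r ∈ 𝓝 p := inter_mem (C.openW.mem_nhds hp)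
    ((C.smoothφ.continuousOn.continuousAt (C.openW.mem_nhds hp)).preimage_mem_nhds
      (ball_mem_nhds _ hr))
  obtain ⟨ε, hε, hεW⟩ := Metric.mem_nhds_iff.1 hn
  have hGb0 : 0 ≤ Gb := (norm_nonneg _).trans (hGb y₀ (mem_closedBall_self hr₀.le))
  refine ⟨ball p (ε / 2), ball_mem_nhds _ (half_pos hε),
    min (ε / 2) (μ * k / (2 * (Gb + 1))), by positivity, ?_⟩
  intro L c c' hc hc' hL hcp h0 he
  have hin : ∀ d : ℝ → M, IsSegment g L d → d 0 ∈ ball p (ε / 2) →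
      ∀ s ∈ Icc (0 : ℝ) 1, d s ∈ C.W ∧ C.φ (d s) ∈ ball y₀ r := by
    intro d hd hd0 s hs
    refine hεW (mem_ball.2 ?_)
    have h1 : dist (d s) (d 0) ≤ L := by
      refine (hd s hs 0 ⟨le_rfl, zero_le_one⟩).trans_le ?_
      rw [sub_zero, abs_of_nonneg hs.1]
      exact mul_le_of_le_one_right hd.nonneg hs.2
    have h2 : L < ε / 2 := lt_of_lt_of_le hL (min_le_left _ _)
    linarith [dist_triangle (d s) (d 0) p, mem_ball.1 hd0]
  have hmom : ∀ d : ℝ → M, IsSegment g L d → d 0 ∈ ball p (ε / 2) →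
      ∃ P : ℝ → E →L[ℝ] ℝ, (∀ t ∈ Icc (0 : ℝ) 1, HasDerivWithinAt (fun s => (C.φ (d s), P s))
        (field (C.pull g) (C.φ (d t), P t)) (Icc 0 1) t) ∧ ∀ t ∈ Icc (0 : ℝ) 1, ‖P t‖ ≤ μ := by
    intro d hd hd0
    have hdI := hin d hd hd0
    have hb : ∀ {s}, s ∈ Icc (0 : ℝ) 1 → ∀ {r'}, r ≤ r' → C.φ (d s) ∈ ball y₀ r' :=
      fun hs _ hle => ball_subset_ball hle (hdI _ hs).2
    have hm := hmin d 0 1 L ((⊥ : Submodule ℝ E) : Set E) one_pos hd.nonneg
      (fun s hs => ⟨(hdI s hs).1, hb hs ((min_le_right _ _).trans (min_le_left _ _))⟩)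
      (fun s hs t ht => hd s hs t ht) (fun e he heT => by
        have he' : e = C.φ (d 0) := sub_eq_zero.1 (by simpa using heT)
        rw [he', C.right _ (hdI 0 ⟨le_rfl, zero_le_one⟩).1,
          hd 0 ⟨le_rfl, zero_le_one⟩ 1 ⟨zero_le_one, le_rfl⟩]
        norm_num)
    obtain ⟨P, hP, -⟩ := hm.exists_momentum hG
    refine ⟨P, hP, fun t ht => ?_⟩
    have hlip : LipschitzOnWith (2 * L / k).toNNReal (fun s => C.φ (d s)) (Icc 0 1) := by
      refine LipschitzOnWith.of_dist_le_mul fun s hs t ht => ?_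
      have hle : r ≤ r₂ := (min_le_right _ _).trans (min_le_right _ _)
      have h := hlow _ (hb ht hle) _ (hb hs hle)
      rw [C.right _ (hdI s hs).1, C.right _ (hdI t ht).1, hd t ht s hs] at h
      have := hkv (C.φ (d s) - C.φ (d t))
      rw [dist_eq_norm, Real.dist_eq, Real.coe_toNNReal _ (by have := hd.nonneg; positivity),
        abs_sub_comm s t, div_mul_eq_mul_div, le_div_iff₀ hk]
      linarith
    have hPint : ∀ s ∈ Ioo (0 : ℝ) 1, ‖P s‖ ≤ μ := by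
      intro s hs
      have hsI := Ioo_subset_Icc_self hs
      have hball₀ : C.φ (d s) ∈ closedBall y₀ r₀ :=
        ball_subset_closedBall (hb hsI (min_le_left _ _))
      have hv : HasDerivAt (fun s => C.φ (d s)) (vel (C.pull g) (C.φ (d s)) (P s)) s :=
        ((hP s hsI).hasDerivAt (Icc_mem_nhds hs.1 hs.2)).fst
      have hn := norm_deriv_le_of_lipschitzOn (Icc_mem_nhds hs.1 hs.2) hlip
      rw [hv.deriv, Real.coe_toNNReal _ (by have := hd.nonneg; positivity)] at hn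
      rw [← hG.apply_vel (hrU hball₀) (P s)]
      refine ((C.pull g _).le_opNorm _).trans ((mul_le_mul (hGb _ hball₀) hn (norm_nonneg _)
        hGb0).trans ?_)
      have hL2 : L < μ * k / (2 * (Gb + 1)) := lt_of_lt_of_le hL (min_le_right _ _)
      rw [lt_div_iff₀ (by positivity)] at hL2
      rw [mul_div_assoc', div_le_iff₀ hk]
      nlinarith [hd.nonneg]
    have hPd : HasDerivWithinAt P _ (Icc 0 1) t := (hP t ht).snd
    have hcl := ContinuousWithinAt.mem_closure_image (f := fun s => ‖P s‖) (s := Ioo (0 : ℝ) 1)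
      ((hPd.continuousWithinAt.norm).mono Ioo_subset_Icc_self)
      (by rw [closure_Ioo zero_ne_one]; exact ht)
    exact (closure_minimal (t := Iic μ) (image_subset_iff.2 fun s hs => hPint s hs) isClosed_Iic) hcl
  obtain ⟨P, hP, hPb⟩ := hmom c hc hcp
  obtain ⟨P', hP', hPb'⟩ := hmom c' hc' (h0 ▸ hcp)
  have hI : ∀ s ∈ Icc (0 : ℝ) 1, C.φ (c s) ∈ closedBall y₀ r₀ ∧ C.φ (c' s) ∈ closedBall y₀ r₀ ∧
      ‖P s‖ ≤ μ ∧ ‖P' s‖ ≤ μ := fun s hs =>
    ⟨ball_subset_closedBall (ball_subset_ball (min_le_left _ _) (hin c hc hcp s hs).2),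
      ball_subset_closedBall (ball_subset_ball (min_le_left _ _) (hin c' hc' (h0 ▸ hcp) s hs).2),
      hPb s hs, hPb' s hs⟩
  have hend : C.φ (c 1) = C.φ (c' 1) ∨ P 0 = P' 0 := by
    refine he.imp (fun h => by rw [h]) fun h => ?_
    have h0I : (0 : ℝ) ∈ Icc (0 : ℝ) 1 := ⟨le_rfl, zero_le_one⟩
    have hsub : Icc (0 : ℝ) (1 / 2) ⊆ Icc 0 1 := Icc_subset_Icc le_rfl (by norm_num)
    have h1 : HasDerivWithinAt (fun s => C.φ (c s)) (vel (C.pull g) (C.φ (c 0)) (P 0))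
        (Icc 0 (1 / 2)) 0 := ((hP 0 h0I).mono hsub).fst
    have h2 : HasDerivWithinAt (fun s => C.φ (c' s)) (vel (C.pull g) (C.φ (c' 0)) (P' 0))
        (Icc 0 (1 / 2)) 0 := ((hP' 0 h0I).mono hsub).fst
    have h3 := (uniqueDiffOn_Icc (by norm_num : (0 : ℝ) < 1 / 2) 0 ⟨le_rfl, by norm_num⟩).eq_deriv
      _ h1 (h2.congr (fun s hs => by rw [h s hs]) (by rw [h0]))
    have hU := hrU (hI 0 h0I).1
    rw [← h0] at h3
    rw [← hG.apply_vel hU (P 0), h3, hG.apply_vel hU]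
  intro s hs
  have h := hsol _ _ P P' hI hP hP' (by rw [h0]) hend s hs
  rw [← C.right _ (hin c hc hcp s hs).1, h, C.right _ (hin c' hc' (h0 ▸ hcp) s hs).1]

end

end Vale.Agent.P216.Sym
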